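import Vale.Agent.P257.H319.TLevel
import Vale.Agent.P251.M.SpaceCells

/-!
# P257, Toda relation, abstract part: the splitting of `A` and its diagonal

* `SplitA.ofTriangle` : `A = 𝟙 ⊞ 𝟙⟦m⟧` from a triangle `A ⟶ 𝟙 ⟶ B ⟶ A⟦1⟧`, whose second map is
  zero, `B ≅ 𝟙⟦m⟧⟦1⟧`;
* `SplitA.pt_diag`, `SplitA.sec_diag` : the diagonal.
-/

open CategoryTheory MonoidalCategory Limits Pretriangulated

universe v u

set_option linter.unusedSectionVars false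

namespace Vale.Agent.P257.H319

open Vale.Agent.P251.T Vale.Agent.P251.M Vale.Agent.P251.S Vale.Agent.P251.H Vale.Agent.P257.H314

variable {T : Type u} [Category.{v} T] [Preadditive T] [HasZeroObject T]
    [HasShift T ℤ] [∀ n : ℤ, (shiftFunctor T n).Additive] [Pretriangulated T]
    [MonoidalCategory T]

section Split

variable {A B : T} {m : ℤ} {pt : 𝟙_ T ⟶ A} {pr : A ⟶ 𝟙_ T} {z : 𝟙_ T ⟶ B} {w : B ⟶ A⟦(1 : ℤ)⟧}

lemma exists_sec (i : B ≅ ((𝟙_ T)⟦m⟧)⟦(1 : ℤ)⟧) (w : B ⟶ A⟦(1 : ℤ)⟧) :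
    ∃ sec : (𝟙_ T)⟦m⟧ ⟶ A, i.hom ≫ sec⟦(1 : ℤ)⟧' = w := by
  obtain ⟨sec, h⟩ := (shiftFunctor T (1 : ℤ)).map_surjective (i.inv ≫ w)
  exact ⟨sec, by rw [h, Iso.hom_inv_id_assoc]⟩

lemma exists_split (h : pt ≫ pr = 𝟙 _) (D : Dist pr z w) (hz : z = 0)
    (i : B ≅ ((𝟙_ T)⟦m⟧)⟦(1 : ℤ)⟧) {sec : (𝟙_ T)⟦m⟧ ⟶ A} (hs : i.hom ≫ sec⟦(1 : ℤ)⟧' = w) :
    ∃ top : A ⟶ (𝟙_ T)⟦m⟧, sec ≫ top = 𝟙 _ ∧ pt ≫ top = 0 ∧ sec ≫ pr = 0 ∧
      pr ≫ pt + top ≫ sec = 𝟙 A := by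
  have hs' : sec⟦(1 : ℤ)⟧' = i.inv ≫ w := by rw [← hs, Iso.inv_hom_id_assoc]
  have hwp : w ≫ pr⟦(1 : ℤ)⟧' = 0 := comp_distTriang_mor_zero₃₁ _ D
  have hsp : sec ≫ pr = 0 := by
    apply (shiftFunctor T (1 : ℤ)).map_injective
    rw [Functor.map_comp, hs', Category.assoc, hwp, comp_zero, Functor.map_zero]
  have hmono : ∀ {Y : T} (x : Y ⟶ (𝟙_ T)⟦m⟧), x ≫ sec = 0 → x = 0 := by
    intro Y x hx
    have h1 : (x⟦(1 : ℤ)⟧' ≫ i.inv) ≫ w = 0 := by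
      rw [Category.assoc, ← hs', ← Functor.map_comp, hx, Functor.map_zero]
    obtain ⟨y, hy⟩ : ∃ y : Y⟦(1 : ℤ)⟧ ⟶ 𝟙_ T, x⟦(1 : ℤ)⟧' ≫ i.inv = y ≫ z :=
      Triangle.coyoneda_exact₃ _ D _ h1
    rw [hz, comp_zero] at hy
    apply (shiftFunctor T (1 : ℤ)).map_injective
    rw [Functor.map_zero, ← cancel_mono i.inv, hy, zero_comp]
  have h2 : (𝟙 A - pr ≫ pt)⟦(1 : ℤ)⟧' ≫ pr⟦(1 : ℤ)⟧' = 0 := by
    rw [← Functor.map_comp, Preadditive.sub_comp, Category.assoc, h, Category.comp_id,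
      Category.id_comp, sub_self, Functor.map_zero]
  obtain ⟨g, hg⟩ : ∃ g : A⟦(1 : ℤ)⟧ ⟶ B, (𝟙 A - pr ≫ pt)⟦(1 : ℤ)⟧' = g ≫ w :=
    Triangle.coyoneda_exact₁ _ D _ h2
  obtain ⟨top, ht⟩ := (shiftFunctor T (1 : ℤ)).map_surjective (g ≫ i.hom)
  have h3 : 𝟙 A - pr ≫ pt = top ≫ sec := by
    apply (shiftFunctor T (1 : ℤ)).map_injective
    rw [hg, Functor.map_comp, ht, Category.assoc, hs]
  refine ⟨top, ?_, ?_, hsp, by rw [← h3]; abel⟩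
  · rw [← sub_eq_zero]
    apply hmono
    rw [Preadditive.sub_comp, Category.assoc, ← h3, Category.id_comp, Preadditive.comp_sub,
      Category.comp_id, reassoc_of% hsp, zero_comp, sub_zero, sub_self]
  · apply hmono
    rw [Category.assoc, ← h3, Preadditive.comp_sub, Category.comp_id, reassoc_of% h, sub_self]

/-- The splitting, from a triangle. -/
noncomputable def SplitA.ofTriangle (h : pt ≫ pr = 𝟙 _) (D : Dist pr z w) (hz : z = 0)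
    (i : B ≅ ((𝟙_ T)⟦m⟧)⟦(1 : ℤ)⟧) : SplitA A m where
  pt := pt
  pr := pr
  sec := (exists_sec i w).choose
  top := (exists_split h D hz i (exists_sec i w).choose_spec).choose
  pt_pr := h
  sec_top := (exists_split h D hz i (exists_sec i w).choose_spec).choose_spec.1
  pt_top := (exists_split h D hz i (exists_sec i w).choose_spec).choose_spec.2.1
  sec_pr := (exists_split h D hz i (exists_sec i w).choose_spec).choose_spec.2.2.1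
  total := (exists_split h D hz i (exists_sec i w).choose_spec).choose_spec.2.2.2

lemma SplitA.ofTriangle_sec (h : pt ≫ pr = 𝟙 _) (D : Dist pr z w) (hz : z = 0)
    (i : B ≅ ((𝟙_ T)⟦m⟧)⟦(1 : ℤ)⟧) :
    i.hom ≫ (SplitA.ofTriangle h D hz i).sec⟦(1 : ℤ)⟧' = w := (exists_sec i w).choose_spec

end Split

variable [SymmetricCategory T] [TensorTriangulated T]

/-- maps from spheres to smash products of spheres -/
lemma sph_eq_zero (hc : Conn (0 : ℤ) (𝟙_ T)) {a b c : ℤ} (h : a < b + c)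
    (f : (𝟙_ T)⟦a⟧ ⟶ ((𝟙_ T)⟦b⟧) ⊗ ((𝟙_ T)⟦c⟧)) : f = 0 := by
  have h1 : f ≫ (tensorSph c ((𝟙_ T)⟦b⟧)).hom = 0 := by
    refine eq_zero_of_shift (fun f' => ?_) _
    let k : (𝟙_ T)⟦b⟧ ≅ (𝟙_ T)⟦b⟧ := Iso.refl _
    exact eq_zero_of_shift (fun f'' => hc _ (by omega) f'') f'
  rw [← cancel_mono (tensorSph c ((𝟙_ T)⟦b⟧)).hom, h1, zero_comp]

lemma sph_eq_zero' (hc : Conn (0 : ℤ) (𝟙_ T)) {b c : ℤ} (h : 0 < b + c)
    (f : 𝟙_ T ⟶ ((𝟙_ T)⟦b⟧) ⊗ ((𝟙_ T)⟦c⟧)) : f = 0 := by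
  let i : (𝟙_ T)⟦(0 : ℤ)⟧ ≅ 𝟙_ T := (shiftFunctorZero T ℤ).app _
  have h1 : i.hom ≫ f = 0 := sph_eq_zero hc h _
  rw [← cancel_epi i.hom, h1, comp_zero]

namespace SplitA

variable {A : T} {m : ℤ} (s : SplitA A m)

/-- Joint injectivity of the projections of `A ⊗ A`. -/
lemma tensor_ext {X : T} {x y : X ⟶ A ⊗ A} (h1 : x ≫ (s.pr ▷ A) = y ≫ (s.pr ▷ A))
    (h2 : x ≫ (A ◁ s.pr) = y ≫ (A ◁ s.pr))
    (h3 : x ≫ (s.top ⊗ₘ s.top) = y ≫ (s.top ⊗ₘ s.top)) : x = y := by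
  have e1 := congrArg (fun k : A ⟶ A => (k ▷ A)) s.total
  have e2 := congrArg (fun k : A ⟶ A => (((𝟙_ T)⟦m⟧) ◁ k)) s.total
  simp only [MonoidalPreadditive.add_whiskerRight, comp_whiskerRight, id_whiskerRight] at e1
  simp only [MonoidalPreadditive.whiskerLeft_add, MonoidalCategory.whiskerLeft_comp,
    MonoidalCategory.whiskerLeft_id] at e2
  have key : ∀ k : X ⟶ A ⊗ A, k = (k ≫ (s.pr ▷ A)) ≫ (s.pt ▷ A) +
      ((k ≫ (A ◁ s.pr)) ≫ (s.top ▷ _) ≫ (_ ◁ s.pt) ≫ (s.sec ▷ A) +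
        (k ≫ (s.top ⊗ₘ s.top)) ≫ (_ ◁ s.sec) ≫ (s.sec ▷ A)) := by
    intro k
    have e3 : (s.top ▷ A) ≫ (s.sec ▷ A) = (A ◁ s.pr) ≫ (s.top ▷ _) ≫ (_ ◁ s.pt) ≫ (s.sec ▷ A) +
        (s.top ⊗ₘ s.top) ≫ (_ ◁ s.sec) ≫ (s.sec ▷ A) := by
      calc (s.top ▷ A) ≫ (s.sec ▷ A) = (s.top ▷ A) ≫ 𝟙 _ ≫ (s.sec ▷ A) := by
            rw [Category.id_comp]
        _ = _ := by
            rw [← e2, Preadditive.add_comp, Preadditive.comp_add, MonoidalCategory.tensorHom_def]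
            simp only [Category.assoc]
            rw [whisker_exchange_assoc]
    calc k = k ≫ 𝟙 _ := (Category.comp_id _).symm
      _ = _ := by
          rw [← e1, e3]
          simp only [Preadditive.comp_add, Category.assoc]
  rw [key x, key y, h1, h2, h3]

variable {δ : A ⟶ A ⊗ A} (hl : δ ≫ (s.pr ▷ A) ≫ (λ_ A).hom = 𝟙 A)
    (hr : δ ≫ (A ◁ s.pr) ≫ (ρ_ A).hom = 𝟙 A)
    (hc : Conn (0 : ℤ) (𝟙_ T)) (hm : 0 < m)

include hl hr hc hm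

lemma pt_diag : s.pt ≫ δ = (λ_ (𝟙_ T)).inv ≫ (s.pt ⊗ₘ s.pt) := by
  have hl' : δ ≫ (s.pr ▷ A) = (λ_ A).inv := by
    rw [← cancel_mono (λ_ A).hom, Category.assoc, hl, Iso.inv_hom_id]
  have hr' : δ ≫ (A ◁ s.pr) = (ρ_ A).inv := by
    rw [← cancel_mono (ρ_ A).hom, Category.assoc, hr, Iso.inv_hom_id]
  refine s.tensor_ext ?_ ?_ ?_
  · rw [Category.assoc, hl', Category.assoc, tensorHom_def', Category.assoc, ← comp_whiskerRight,
      s.pt_pr, id_whiskerRight, Category.comp_id, ← leftUnitor_inv_naturality]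
  · rw [Category.assoc, hr', Category.assoc, MonoidalCategory.tensorHom_def, Category.assoc,
      ← MonoidalCategory.whiskerLeft_comp, s.pt_pr, MonoidalCategory.whiskerLeft_id,
      Category.comp_id, unitors_inv_equal, ← rightUnitor_inv_naturality]
  · rw [sph_eq_zero' hc (by omega) ((s.pt ≫ δ) ≫ (s.top ⊗ₘ s.top)),
      sph_eq_zero' hc (by omega) (((λ_ (𝟙_ T)).inv ≫ (s.pt ⊗ₘ s.pt)) ≫ (s.top ⊗ₘ s.top))]

lemma sec_diag :
    s.sec ≫ δ = (ρ_ _).inv ≫ (s.sec ⊗ₘ s.pt) + (λ_ _).inv ≫ (s.pt ⊗ₘ s.sec) := by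
  have hl' : δ ≫ (s.pr ▷ A) = (λ_ A).inv := by
    rw [← cancel_mono (λ_ A).hom, Category.assoc, hl, Iso.inv_hom_id]
  have hr' : δ ≫ (A ◁ s.pr) = (ρ_ A).inv := by
    rw [← cancel_mono (ρ_ A).hom, Category.assoc, hr, Iso.inv_hom_id]
  refine s.tensor_ext ?_ ?_ ?_
  · rw [Category.assoc, hl', Preadditive.add_comp, Category.assoc, tensorHom_def', Category.assoc,
      ← comp_whiskerRight, s.sec_pr, MonoidalPreadditive.zero_whiskerRight, comp_zero, comp_zero,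
      zero_add, Category.assoc, tensorHom_def', Category.assoc, ← comp_whiskerRight,
      s.pt_pr, id_whiskerRight, Category.comp_id, ← leftUnitor_inv_naturality]
  · rw [Category.assoc, hr', Preadditive.add_comp, Category.assoc _ _ (A ◁ s.pr),
      Category.assoc _ _ (A ◁ s.pr), MonoidalCategory.tensorHom_def, Category.assoc,
      ← MonoidalCategory.whiskerLeft_comp, s.pt_pr, MonoidalCategory.whiskerLeft_id,
      Category.comp_id, MonoidalCategory.tensorHom_def, Category.assoc,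
      ← MonoidalCategory.whiskerLeft_comp, s.sec_pr, MonoidalPreadditive.whiskerLeft_zero,
      comp_zero, comp_zero, add_zero, rightUnitor_inv_naturality]
  · rw [sph_eq_zero hc (by omega) ((s.sec ≫ δ) ≫ (s.top ⊗ₘ s.top)),
      sph_eq_zero hc (by omega) (((ρ_ _).inv ≫ (s.sec ⊗ₘ s.pt) + (λ_ _).inv ≫ (s.pt ⊗ₘ s.sec)) ≫
        (s.top ⊗ₘ s.top))]

end SplitA

end Vale.Agent.P257.H319
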