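import Vale.Agent.P257.H319.TFinal
import Vale.Agent.P257.H104.Fams
import Vale.Agent.P257.H709.TodaRel
import Vale.Agent.P257.H709.CoefP

/-!
# P257, Toda relation: the system of families over the lens space

* `splitE` : the splitting of the suspension spectrum of `S(ℂⁿ)`;
* `sysE` : the families `E(W ⊗ ρ)` as a `Sys`;
* `powRel_of_th` : `H709.PowRel F C p`, if one mod `p` Thom class of `ρ` over the lens space of
  dimension `2 p - 3` is not constant on the covering.
-/

open CategoryTheory MonoidalCategory Limits Pretriangulated Topology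
open Functor.LaxMonoidal Functor.OplaxMonoidal Functor.Monoidal
open Vale.Agent.P251.T Vale.Agent.P251.M Vale.Agent.P251.S Vale.Agent.P251.H Vale.Agent.P257.H314
open Vale.Agent.P251 Vale.Agent.P251.G Vale.Agent.P251.G.LC Vale.Agent.P251.I
  Vale.Agent.P251.G.Cell Vale.Agent.P251.F Vale.Agent.P251.B
open Vale.Agent.P257.H709 Vale.Agent.P257.H762 Vale.Agent.P257.H104

universe v u

set_option linter.unusedSectionVars false

noncomputable section

namespace Vale.Agent.P257.H319

variable {T : Type u} [Category.{v} T] [Preadditive T] [HasZeroObject T]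
    [HasShift T ℤ] [∀ n : ℤ, (shiftFunctor T n).Additive] [Pretriangulated T]
    [MonoidalCategory T] [SymmetricCategory T] [TensorTriangulated T] (F : SpaceFunctor T)

variable {p : ℕ} (hp : p ≠ 0) {n : ℕ} (hn : 0 < n)

/-- the splitting of the suspension spectrum of `S(ℂⁿ)` -/
def splitE : SplitA (YT hp F n) (2 * (n : ℤ) - 1) :=
  splitSS F (κ := Fin n) (m := 2 * (n : ℤ) - 1) (by rw [Fintype.card_fin]; ring) (by omega)
    (pt := ptT hp hn F) (ptT_prT hp hn F)

lemma splitE_pt : (splitE F hp hn).pt = ptT hp hn F := rfl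

lemma splitE_pr : (splitE F hp hn).pr = H104.prT hp F n := rfl

variable [IsTriangulated T] {C : T} {u : 𝟙_ T ⟶ C} (c : Coef C u (p : ℤ) (2 * (n : ℤ) - 1))
  (hp2 : 2 ≤ p)

/-- **The system of families over the lens space.** -/
def sysE : Sys F (Fin p) (splitE F hp hn) u where
  fc W _ _ := fc_fib W (Fin p)
  fam W _ _ := famE hp hn F c (splitE F hp hn) rfl hp2 W
  nat W W' _ _ _ _ f := by
    have : Nonempty (Fin p) := ⟨⟨0, by omega⟩⟩
    exact famE_nat hp hp2 hn F c (splitE F hp hn) rfl f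
  add W W' _ _ _ _ := famE_add hp hp2 hn F c (splitE F hp hn) rfl rfl

include c hp2 in
/-- **The relation for the external powers**, if a Thom class is not constant on the covering. -/
theorem powRel_of_th (hnp : (n : ℤ) = p - 1)
    (θ : ET hp F n Unit ⟶ XT F p Unit ⊗ C)
    (hθ : fibT hp hn F Unit ≫ θ = un u (XT F p Unit))
    (hne : covLT hp F n Unit ≫ θ ≠
      (β_ (YT hp F n) (XT F p Unit)).hom ≫ (XT F p Unit ◁ (H104.prT hp F n ≫ u))) :
    PowRel F C p := by
  let G := sysE F hp hn c hp2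
  refine powRel_of F (r := 2 * (n : ℤ) - 1) (by rw [hnp]; ring) (G.fam Unit).o ?_ ?_
  · exact Fam.o_ne_zero (G.fam Unit) (th := θ) hθ hne
  · intro n m f hX hY
    exact G.main n m f

section final

variable [HasCoproducts.{0} T] [MonoidalClosed T] [HasProducts.{0} T] [StableCat T]

/-- The coefficients `S/p`, for the lens space of dimension `2 p - 3`. -/
def coefE (D : MUData T) (U : UnitCof D.R) [Fact p.Prime] (hp' : p ≠ 2) {C : T} {i : 𝟙_ T ⟶ C}
    {δ : C ⟶ (𝟙_ T)⟦(1 : ℤ)⟧} (hC : Triangle.mk ((p : ℤ) • 𝟙 (𝟙_ T)) i δ ∈ distTriang T)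
    (hnp : (n : ℤ) = p - 1) : Coef C i (p : ℤ) (2 * (n : ℤ) - 1) :=
  (by rw [hnp]; ring : 2 * (p : ℤ) - 3 = 2 * (n : ℤ) - 1) ▸ coefP D U hp' hC

/-- **The Toda relation**, from the non-triviality of one Thom class. -/
theorem todaRel_of_th (D : MUData T) (U : UnitCof D.R) [Fact p.Prime] (hp' : p ≠ 2) {C : T}
    {i : 𝟙_ T ⟶ C} {δ : C ⟶ (𝟙_ T)⟦(1 : ℤ)⟧}
    (hC : Triangle.mk ((p : ℤ) • 𝟙 (𝟙_ T)) i δ ∈ distTriang T) (hnp : (n : ℤ) = p - 1)
    (θ : ET hp F n Unit ⟶ XT F p Unit ⊗ C)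
    (hθ : fibT hp hn F Unit ≫ θ = un i (XT F p Unit))
    (hne : covLT hp F n Unit ≫ θ ≠
      (β_ (YT hp F n) (XT F p Unit)).hom ≫ (XT F p Unit ◁ (H104.prT hp F n ≫ i))) :
    H545.TodaRel p D U :=
  todaRel_of D U hp' hC (powRel_of_th F hp hn (coefE D U hp' hC hnp)
    (Fact.out : p.Prime).two_le hnp θ hθ hne)

end final

end Vale.Agent.P257.H319
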