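import Vale.Agent.P257.H941.Cobd
import Vale.Agent.P257.H327.EI

/-!
# P257 / H319 / DeltaNum : the words and the levels of `δ`

Levels `muD Λ (i, j) = 2 i + 1 + Λ [j = 0]`. The words `m1`, `m2` (with `b_{2,0}`) are the
monomials of degree `2p-1` and weight `p^3+p^2+p+2`; the words `y2 ... y5` (with `b_{3,0}`) and
`y1` are those of weight `p^4+p^3+p^2+p+2`.
-/

noncomputable section

namespace Vale.Agent.P257.H319

open Vale.Agent.P257.H93 Vale.Agent.P257.H134 Vale.Agent.P257.H254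
open Vale.Agent.P257.H632 hiding dg
open Vale.Agent.P257.H941

/-- the level `2 i - 1` of `t_i^(p^j)`, increased by `Λ` if `j = 0` -/
def muD (Λ : ℕ) (v : ℕ × ℕ) : ℕ := 2 * v.1 + 1 + if v.2 = 0 then Λ else 0

theorem isMu_muD {p : ℕ} (hp : 2 ≤ p) (Λ : ℕ) : IsMu p (muD Λ) := by
  refine ⟨?_, ?_⟩
  · intro i j a ha
    simp only [muD]
    rw [if_neg (by omega : ¬ (j + (a + 1) = 0))]
    split_ifs <;> omega
  · intro i j
    have h1 : 2 * (2 * i + 1) ≤ p * (2 * i + 1) := Nat.mul_le_mul_right _ hp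
    have h2 : p * (2 * i + 1) ≤ p * muD Λ (i, j) := Nat.mul_le_mul_left _ (by simp [muD])
    have h4 : muD Λ (i, j + 1) = 2 * i + 1 := by simp [muD]
    rw [h4]
    omega

/-! ### words with equal polynomial letters -/

theorem bl_replicate (q : ℕ) (v : ℕ × ℕ) : bl (List.replicate q v) = Finsupp.single v q := by
  rw [bl, List.map_replicate, List.sum_replicate, Finsupp.smul_single, smul_eq_mul, mul_one]

theorem mab_replicate (a : List (ℕ × ℕ)) (q : ℕ) (v : ℕ × ℕ) :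
    mab a (List.replicate q v) = (a.toFinset, Finsupp.single v q) := by
  rw [mab, bl_replicate]

theorem la_replicate (p : ℕ) (μ : ℕ × ℕ → ℕ) (a : List (ℕ × ℕ)) (q : ℕ) (v : ℕ × ℕ) :
    la p μ a (List.replicate q v) = (a.map μ).sum + p * (q * μ v) := by
  rw [la, List.map_replicate, List.sum_replicate, smul_eq_mul]

/-! ### the words -/

/-- letters of `M1` -/
abbrev m1 : List (ℕ × ℕ) := [(0,1), (0,2), (1,0), (1,1), (2,0)]
/-- letters of `M2` -/
abbrev m2 : List (ℕ × ℕ) := [(1,0), (1,1), (2,0)]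
/-- letters of the target of `M2` -/
abbrev t2 : List (ℕ × ℕ) := [(0,0), (0,1), (1,1), (2,0)]
/-- letters of `Y1` -/
abbrev y1 : List (ℕ × ℕ) := [(0,1), (0,3), (1,0), (1,1), (1,2), (2,1), (3,0)]
/-- letters of `Y2` -/
abbrev y2 : List (ℕ × ℕ) := [(0,1), (1,0), (1,2), (2,1), (3,0)]
/-- letters of `Y3` -/
abbrev y3 : List (ℕ × ℕ) := [(0,1), (0,3), (2,0), (2,1), (3,0)]
/-- letters of `Y4` -/
abbrev y4 : List (ℕ × ℕ) := [(0,3), (1,0), (1,1), (2,1), (3,0)]
/-- letters of `Y5` -/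
abbrev y5 : List (ℕ × ℕ) := [(1,0), (2,1), (3,0)]
/-- first target of `Y2, Y3, Y4` -/
abbrev ta : List (ℕ × ℕ) := [(0,1), (0,2), (0,3), (1,0), (2,1), (3,0)]
/-- second target of `Y2, Y3, Y4` -/
abbrev tb : List (ℕ × ℕ) := [(0,1), (0,3), (1,0), (1,1), (1,2), (3,0)]
/-- third target of `Y2, Y3, Y4` -/
abbrev tc : List (ℕ × ℕ) := [(0,1), (0,3), (1,0), (1,2), (2,0), (2,1)]
/-- target of `Y5` -/
abbrev t5 : List (ℕ × ℕ) := [(0,0), (0,1), (2,1), (3,0)]

/-! ### weights -/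

section weights

variable {p : ℕ}

theorem W_m1 (hp : 3 ≤ p) : la p (wD p) m1 (List.replicate (p - 3) (1,0)) =
    p ^ 3 + p ^ 2 + p + 2 := by
  obtain ⟨q, rfl⟩ := Nat.exists_eq_add_of_le' hp
  rw [la_replicate, Nat.add_sub_cancel]
  simp [wD, Finset.sum_range_succ]
  ring

theorem W_m2 (hp : 2 ≤ p) : la p (wD p) m2 (List.replicate (p - 2) (1,0)) =
    p ^ 3 + p ^ 2 + p + 2 := by
  obtain ⟨q, rfl⟩ := Nat.exists_eq_add_of_le' hp
  rw [la_replicate, Nat.add_sub_cancel]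
  simp [wD, Finset.sum_range_succ]
  ring

theorem W_t2 (hp : 2 ≤ p) : la p (wD p) t2 (List.replicate (p - 2) (1,0)) =
    p ^ 3 + p ^ 2 + p + 2 := by
  obtain ⟨q, rfl⟩ := Nat.exists_eq_add_of_le' hp
  rw [la_replicate, Nat.add_sub_cancel]
  simp [wD, Finset.sum_range_succ]
  ring

theorem W_y2 (hp : 3 ≤ p) : la p (wD p) y2 (List.replicate (p - 3) (2,0)) =
    p ^ 4 + p ^ 3 + p ^ 2 + p + 2 := by
  obtain ⟨q, rfl⟩ := Nat.exists_eq_add_of_le' hp
  rw [la_replicate, Nat.add_sub_cancel]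
  simp [wD, Finset.sum_range_succ]
  ring

theorem W_y3 (hp : 3 ≤ p) : la p (wD p) y3 (List.replicate (p - 3) (2,0)) =
    p ^ 4 + p ^ 3 + p ^ 2 + p + 2 := by
  obtain ⟨q, rfl⟩ := Nat.exists_eq_add_of_le' hp
  rw [la_replicate, Nat.add_sub_cancel]
  simp [wD, Finset.sum_range_succ]
  ring

theorem W_y4 (hp : 3 ≤ p) : la p (wD p) y4 (List.replicate (p - 3) (2,0)) =
    p ^ 4 + p ^ 3 + p ^ 2 + p + 2 := by
  obtain ⟨q, rfl⟩ := Nat.exists_eq_add_of_le' hp
  rw [la_replicate, Nat.add_sub_cancel]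
  simp [wD, Finset.sum_range_succ]
  ring

theorem W_y5 (hp : 2 ≤ p) : la p (wD p) y5 (List.replicate (p - 2) (2,0)) =
    p ^ 4 + p ^ 3 + p ^ 2 + p + 2 := by
  obtain ⟨q, rfl⟩ := Nat.exists_eq_add_of_le' hp
  rw [la_replicate, Nat.add_sub_cancel]
  simp [wD, Finset.sum_range_succ]
  ring

theorem W_ta (hp : 3 ≤ p) : la p (wD p) ta (List.replicate (p - 3) (2,0)) =
    p ^ 4 + p ^ 3 + p ^ 2 + p + 2 := by
  obtain ⟨q, rfl⟩ := Nat.exists_eq_add_of_le' hp
  rw [la_replicate, Nat.add_sub_cancel]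
  simp [wD, Finset.sum_range_succ]
  ring

theorem W_tb (hp : 3 ≤ p) : la p (wD p) tb (List.replicate (p - 3) (2,0)) =
    p ^ 4 + p ^ 3 + p ^ 2 + p + 2 := by
  obtain ⟨q, rfl⟩ := Nat.exists_eq_add_of_le' hp
  rw [la_replicate, Nat.add_sub_cancel]
  simp [wD, Finset.sum_range_succ]
  ring

theorem W_tc (hp : 3 ≤ p) : la p (wD p) tc (List.replicate (p - 3) (2,0)) =
    p ^ 4 + p ^ 3 + p ^ 2 + p + 2 := by
  obtain ⟨q, rfl⟩ := Nat.exists_eq_add_of_le' hp
  rw [la_replicate, Nat.add_sub_cancel]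
  simp [wD, Finset.sum_range_succ]
  ring

theorem W_t5 (hp : 2 ≤ p) : la p (wD p) t5 (List.replicate (p - 2) (2,0)) =
    p ^ 4 + p ^ 3 + p ^ 2 + p + 2 := by
  obtain ⟨q, rfl⟩ := Nat.exists_eq_add_of_le' hp
  rw [la_replicate, Nat.add_sub_cancel]
  simp [wD, Finset.sum_range_succ]
  ring

end weights

/-! ### levels -/

section levels

variable {p : ℕ}

/-- the level of `M1` -/
def l1 (p : ℕ) : ℕ := 13 + 4 * p + p * ((p - 3) * (3 + 2 * p))
/-- the level of `M2` -/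
def l2 (p : ℕ) : ℕ := 11 + 4 * p + p * ((p - 2) * (3 + 2 * p))
/-- the level of `Y2`, `Y3`, `Y4` -/
def l3 (p : ℕ) : ℕ := 19 + 4 * p + p * ((p - 3) * (5 + 2 * p))
/-- the level of `Y5` -/
def l5 (p : ℕ) : ℕ := 15 + 4 * p + p * ((p - 2) * (5 + 2 * p))

theorem L_m1 : la p (muD (2 * p)) m1 (List.replicate (p - 3) (1,0)) = l1 p := by
  rw [la_replicate, l1]
  simp [muD]
  ring

theorem L_m2 : la p (muD (2 * p)) m2 (List.replicate (p - 2) (1,0)) = l2 p := by
  rw [la_replicate, l2]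
  simp [muD]
  ring

theorem L_t2 : la p (muD (2 * p)) t2 (List.replicate (p - 2) (1,0)) + 1 = l2 p := by
  rw [la_replicate, l2]
  simp [muD]
  ring

theorem L_y1 (hp : 4 ≤ p) :
    la p (muD (2 * p)) y1 (List.replicate (p - 4) (2,0)) + (11 * p - 9) = l1 p + 1 := by
  obtain ⟨q, rfl⟩ := Nat.exists_eq_add_of_le' hp
  rw [la_replicate, Nat.add_sub_cancel, l1]
  simp only [show q + 4 - 3 = q + 1 by omega, show 11 * (q + 4) - 9 = 11 * q + 35 by omega]
  simp [muD]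
  ring

theorem L_y2 : la p (muD (2 * p)) y2 (List.replicate (p - 3) (2,0)) = l3 p := by
  rw [la_replicate, l3]
  simp [muD]
  ring

theorem L_y3 : la p (muD (2 * p)) y3 (List.replicate (p - 3) (2,0)) = l3 p := by
  rw [la_replicate, l3]
  simp [muD]
  ring

theorem L_y4 : la p (muD (2 * p)) y4 (List.replicate (p - 3) (2,0)) = l3 p := by
  rw [la_replicate, l3]
  simp [muD]
  ring

theorem L_y5 : la p (muD (2 * p)) y5 (List.replicate (p - 2) (2,0)) = l5 p := by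
  rw [la_replicate, l5]
  simp [muD]
  ring

theorem L_ta : la p (muD (2 * p)) ta (List.replicate (p - 3) (2,0)) + 1 = l3 p := by
  rw [la_replicate, l3]
  simp [muD]
  ring

theorem L_tb : la p (muD (2 * p)) tb (List.replicate (p - 3) (2,0)) + 1 = l3 p := by
  rw [la_replicate, l3]
  simp [muD]
  ring

theorem L_tc : la p (muD (2 * p)) tc (List.replicate (p - 3) (2,0)) + 1 = l3 p := by
  rw [la_replicate, l3]
  simp [muD]
  ring

theorem L_t5 : la p (muD (2 * p)) t5 (List.replicate (p - 2) (2,0)) + 1 = l5 p := by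
  rw [la_replicate, l5]
  simp [muD]
  ring

theorem l1_lt_l2 (hp : 3 ≤ p) : l1 p + 1 < l2 p := by
  obtain ⟨q, rfl⟩ := Nat.exists_eq_add_of_le' hp
  have h : l2 (q + 3) = l1 (q + 3) + (2 * q ^ 2 + 15 * q + 25) := by
    simp only [l1, l2, show q + 3 - 3 = q by omega, show q + 3 - 2 = q + 1 by omega]
    ring
  rw [h]
  omega

theorem l1_lt_l3 (hp : 3 ≤ p) : l1 p + 2 < l3 p := by
  obtain ⟨q, rfl⟩ := Nat.exists_eq_add_of_le' hp
  have h : l3 (q + 3) = l1 (q + 3) + (2 * q ^ 2 + 6 * q + 6) := by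
    simp only [l1, l3, show q + 3 - 3 = q by omega]
    ring
  rw [h]
  omega

theorem l3_lt_l5 (hp : 3 ≤ p) : l3 p < l5 p := by
  obtain ⟨q, rfl⟩ := Nat.exists_eq_add_of_le' hp
  have h : l5 (q + 3) = l3 (q + 3) + (2 * q ^ 2 + 17 * q + 29) := by
    simp only [l3, l5, show q + 3 - 3 = q by omega, show q + 3 - 2 = q + 1 by omega]
    ring
  rw [h]
  omega

end levels

end Vale.Agent.P257.H319

end
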