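import Vale.Agent.P257.H319.WordStep
import Vale.Agent.P257.H319.DeltaNum
import Vale.Agent.P257.H545.FinalP

/-!
# P257 / H319 / Delta : right multiplication by `h_{1,4}` is injective in degree `2p-1`

`delta` : for `p ≥ 11`, if `T` is a cocycle of degree `2p-1` and weight `p^3+p^2+p+2` and the
product `T h_{1,4}` is a coboundary, then `T` is a coboundary.
-/

noncomputable section

namespace Vale.Agent.P257.H319

open Vale.Agent.P257.H93 Vale.Agent.P257.H134 Vale.Agent.P257.H254
open Vale.Agent.P257.H632 hiding dg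
open Vale.Agent.P257.H941

variable {p : ℕ} [hp : Fact p.Prime]

omit hp in
/-- Monomials of degree `2p-1` and weight `p^3+p^2+p+2`. -/
theorem enum_T (h11 : 11 ≤ p) (r : EI (ℕ × ℕ)) (hs : degM r = 2 * (p - 1) + 1)
    (hW : levM p (wD p) r = p ^ 3 + p ^ 2 + p + 2) :
    r = mab m1 (List.replicate (p - 3) (1,0)) ∨ r = mab m2 (List.replicate (p - 2) (1,0)) := by
  rcases Vale.Agent.P257.H327.enumE_delta p h11 r (by omega) hW with h | h
  · left
    rw [h, mab_replicate]
    rfl
  · right
    rw [h, mab_replicate]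
    rfl

omit hp in
/-- Monomials of degree `2p-1` and weight `p^4+p^3+p^2+p+2`. -/
theorem enum_B (h11 : 11 ≤ p) (r : EI (ℕ × ℕ)) (hs : degM r = 2 * (p - 1) + 1)
    (hW : levM p (wD p) r = p ^ 4 + p ^ 3 + p ^ 2 + p + 2) :
    r = mab y1 (List.replicate (p - 4) (2,0)) ∨ r = mab y2 (List.replicate (p - 3) (2,0)) ∨
    r = mab y3 (List.replicate (p - 3) (2,0)) ∨ r = mab y4 (List.replicate (p - 3) (2,0)) ∨
    r = mab y5 (List.replicate (p - 2) (2,0)) := by
  rcases Vale.Agent.P257.H327.enumE_Y p h11 r (by omega) hW with h | h | h | h | h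
  · left
    rw [h, mab_replicate]
    rfl
  · right; left
    rw [h, mab_replicate]
    rfl
  · right; right; left
    rw [h, mab_replicate]
    rfl
  · right; right; right; left
    rw [h, mab_replicate]
    rfl
  · right; right; right; right
    rw [h, mab_replicate]
    rfl

theorem one_ne : ((1 : ℤ) : ZMod p) ≠ 0 := by
  rw [Int.cast_one]
  exact one_ne_zero

theorem neg_one_ne : ((-1 : ℤ) : ZMod p) ≠ 0 := by
  rw [Int.cast_neg, Int.cast_one]
  exact neg_ne_zero.2 one_ne_zero

theorem three_ne (h11 : 11 ≤ p) : (3 : ZMod p) ≠ 0 := by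
  intro h
  have h1 : ((3 : ℕ) : ZMod p) = 0 := by exact_mod_cast h
  rw [ZMod.natCast_eq_zero_iff] at h1
  exact absurd (Nat.le_of_dvd (by norm_num) h1) (by omega)

omit hp in
theorem sg_ne [Fact p.Prime] (v : ℕ × ℕ) (S : Finset (ℕ × ℕ)) : (sg v S : ZMod p) ≠ 0 := by
  intro h
  have h1 : ((sg v S * sg v S : ℤ) : ZMod p) = 1 := by rw [sg_mul_self, Int.cast_one]
  rw [Int.cast_mul, h, mul_zero] at h1
  exact zero_ne_one h1

/-- First step: the part of `T` above the level of `M1`. -/
theorem step_T (h11 : 11 ≤ p) {T : CobP p (2 * (p - 1) + 1)}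
    (hT : T ∈ WtP p (2 * (p - 1) + 1) (p ^ 3 + p ^ 2 + p + 2))
    (hd : dP (2 * (p - 1) + 1) T = 0) :
    ∃ x ∈ WtP p (2 * (p - 1)) (p ^ 3 + p ^ 2 + p + 2),
      T - dP (2 * (p - 1)) x ∈ Fil (muD (2 * p)) (2 * (p - 1) + 1) (l1 p + 1) := by
  have h12 := l1_lt_l2 (p := p) (by omega)
  refine exists_sub_mem_words (isMu_muD (by omega) _) (by omega) _ _ _ (ι := Unit)
    (fun _ => m2) (fun _ => List.replicate (p - 2) (1,0)) ?_ ?_ ?_ ?_ ?_ ?_ ?_ ?_ hT
    (by rw [hd]; exact Submodule.zero_mem _)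
  · intro _
    simp only [List.length_replicate, List.length_cons, List.length_nil]
    omega
  · intro _
    exact W_m2 (by omega)
  · intro _
    decide
  · intro _
    rw [show snl m2 = 1 by decide]
    exact one_ne
  · intro r h1 h2 h3
    rcases enum_T h11 r h1 h2 with h | h
    · rw [h, levM_mab _ (by decide), L_m1] at h3
      omega
    · exact ⟨(), h⟩
  · intro _ _ _
    rfl
  · intro _
    simp only [L_m2]
    omega
  · intro L c hc h
    funext k
    by_contra hk
    have h1 : l2 p = L + 1 := by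
      rw [← L_m2]
      exact hc k hk
    have h2 := L_t2 (p := p)
    have h3 := h (mab t2 (List.replicate (p - 2) (1,0)))
      (by
        rw [degM_mab (by decide)]
        simp only [List.length_replicate, List.length_cons, List.length_nil]
        omega)
      (by rw [levM_mab _ (by decide), W_t2 (by omega)])
      (by rw [levM_mab _ (by decide)]; omega)
    rw [Fintype.sum_unique] at h3
    rw [mab_replicate, bl_replicate, if_pos rfl, show KT t2.toFinset m2 = 1 by decide] at h3
    rcases mul_eq_zero.1 h3 with h4 | h4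
    · exact hk h4
    · exact one_ne h4

/-- letters of the four words -/
def ya : Fin 4 → List (ℕ × ℕ) := ![y2, y3, y4, y5]
/-- number of polynomial letters -/
def yq (p : ℕ) : Fin 4 → ℕ := ![p - 3, p - 3, p - 3, p - 2]

/-- Second step: the part of `B` above the level of `M1 h_{1,4}`. -/
theorem step_B (h11 : 11 ≤ p) {B : CobP p (2 * (p - 1) + 1)}
    (hB : B ∈ WtP p (2 * (p - 1) + 1) (p ^ 4 + p ^ 3 + p ^ 2 + p + 2))
    (hd : dP (2 * (p - 1) + 1) B ∈ Fil (muD (2 * p)) (2 * (p - 1) + 2) (l1 p + 2)) :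
    ∃ x ∈ WtP p (2 * (p - 1)) (p ^ 4 + p ^ 3 + p ^ 2 + p + 2),
      B - dP (2 * (p - 1)) x ∈ Fil (muD (2 * p)) (2 * (p - 1) + 1) (l1 p + 2) := by
  have h13 := l1_lt_l3 (p := p) (by omega)
  have h35 := l3_lt_l5 (p := p) (by omega)
  refine exists_sub_mem_words (isMu_muD (by omega) _) (by omega) _ _ _ (ι := Fin 4)
    ya (fun k => List.replicate (yq p k) (2,0)) ?_ ?_ ?_ ?_ ?_ ?_ ?_ ?_ hB hd
  · intro k
    rw [List.length_replicate]
    fin_cases k
    · change 5 + 2 * (p - 3) = _
      omega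
    · change 5 + 2 * (p - 3) = _
      omega
    · change 5 + 2 * (p - 3) = _
      omega
    · change 3 + 2 * (p - 2) = _
      omega
  · intro k
    fin_cases k
    · exact W_y2 (by omega)
    · exact W_y3 (by omega)
    · exact W_y4 (by omega)
    · exact W_y5 (by omega)
  · decide
  · intro k
    fin_cases k
    · exact (show snl y2 = 1 by decide) ▸ one_ne
    · exact (show snl y3 = 1 by decide) ▸ one_ne
    · exact (show snl y4 = -1 by decide) ▸ neg_one_ne
    · exact (show snl y5 = 1 by decide) ▸ one_ne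
  · intro r h1 h2 h3
    rcases enum_B h11 r h1 h2 with h | h | h | h | h
    · have h4 := L_y1 (p := p) (by omega)
      rw [h, levM_mab _ (by decide)] at h3
      omega
    · exact ⟨0, h⟩
    · exact ⟨1, h⟩
    · exact ⟨2, h⟩
    · exact ⟨3, h⟩
  · intro k k' h
    have key : ∀ k k' : Fin 4, (ya k).toFinset = (ya k').toFinset → k = k' := by decide
    exact key k k' (congrArg Prod.fst h)
  · intro k
    fin_cases k
    · exact L_y2 (p := p) ▸ h13
    · exact L_y3 (p := p) ▸ h13
    · exact L_y4 (p := p) ▸ h13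
    · exact L_y5 (p := p) ▸ (by omega : l1 p + 2 < l5 p)
  · intro L c hc h
    have c0 : c 0 ≠ 0 → l3 p = L + 1 := fun h1 => by rw [← L_y2]; exact hc 0 h1
    have c1 : c 1 ≠ 0 → l3 p = L + 1 := fun h1 => by rw [← L_y3]; exact hc 1 h1
    have c2 : c 2 ≠ 0 → l3 p = L + 1 := fun h1 => by rw [← L_y4]; exact hc 2 h1
    have c3 : c 3 ≠ 0 → l5 p = L + 1 := fun h1 => by rw [← L_y5]; exact hc 3 h1
    by_cases hL : l3 p = L + 1
    · have hc3 : c 3 = 0 := by
        by_contra h1
        have := c3 h1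
        omega
      have e : ∀ (k : Fin 4) (t : List (ℕ × ℕ)), yq p k = p - 3 →
          (if (mab t (List.replicate (p - 3) (2,0))).2 = bl (List.replicate (yq p k) (2,0)) then
            (KT (mab t (List.replicate (p - 3) (2,0))).1 (ya k) : ZMod p) else 0) =
          (KT t.toFinset (ya k) : ZMod p) := by
        intro k t hk
        rw [hk]
        exact if_pos rfl
      have key : ∀ t : List (ℕ × ℕ), t.Nodup → t.length = 6 →
          la p (wD p) t (List.replicate (p - 3) (2,0)) = p ^ 4 + p ^ 3 + p ^ 2 + p + 2 →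
          la p (muD (2 * p)) t (List.replicate (p - 3) (2,0)) + 1 = l3 p →
          c 0 * (KT t.toFinset (ya 0) : ZMod p) + c 1 * (KT t.toFinset (ya 1) : ZMod p) +
            c 2 * (KT t.toFinset (ya 2) : ZMod p) = 0 := by
        intro t h1 h2 h3 h4
        have h5 := h (mab t (List.replicate (p - 3) (2,0)))
          (by rw [degM_mab h1, h2, List.length_replicate]; omega)
          (by rw [levM_mab _ h1, h3])
          (by rw [levM_mab _ h1]; omega)
        rw [Fin.sum_univ_four, e 0 t rfl, e 1 t rfl, e 2 t rfl, hc3, zero_mul, add_zero] at h5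
        exact h5
      have ka := key ta (by decide) rfl (W_ta (by omega)) L_ta
      have kb := key tb (by decide) rfl (W_tb (by omega)) L_tb
      have kc := key tc (by decide) rfl (W_tc (by omega)) L_tc
      rw [show KT ta.toFinset (ya 0) = -1 by decide, show KT ta.toFinset (ya 1) = -1 by decide,
        show KT ta.toFinset (ya 2) = -1 by decide] at ka
      rw [show KT tb.toFinset (ya 0) = 1 by decide, show KT tb.toFinset (ya 1) = 0 by decide,
        show KT tb.toFinset (ya 2) = -1 by decide] at kb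
      rw [show KT tc.toFinset (ya 0) = -1 by decide, show KT tc.toFinset (ya 1) = 1 by decide,
        show KT tc.toFinset (ya 2) = 0 by decide] at kc
      push_cast at ka kb kc
      have k0 : (3 : ZMod p) * c 0 = 0 := by linear_combination -ka + kb - kc
      have k1 : c 0 = 0 := (mul_eq_zero.1 k0).resolve_left (three_ne h11)
      have k2 : c 1 = 0 := by linear_combination kc + k1
      have k3 : c 2 = 0 := by linear_combination -kb + k1
      funext k
      fin_cases k
      · exact k1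
      · exact k2
      · exact k3
      · exact hc3
    · have k1 : c 0 = 0 := by
        by_contra h1
        exact hL (c0 h1)
      have k2 : c 1 = 0 := by
        by_contra h1
        exact hL (c1 h1)
      have k3 : c 2 = 0 := by
        by_contra h1
        exact hL (c2 h1)
      have k4 : c 3 = 0 := by
        by_contra h1
        have h2 := c3 h1
        have h4 := L_t5 (p := p)
        have h5 := h (mab t5 (List.replicate (p - 2) (2,0)))
          (by
            rw [degM_mab (by decide), List.length_replicate]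
            change 4 + 2 * (p - 2) = _
            omega)
          (by rw [levM_mab _ (by decide), W_t5 (by omega)])
          (by rw [levM_mab _ (by decide)]; omega)
        have e : (if (mab t5 (List.replicate (p - 2) (2,0))).2 =
            bl (List.replicate (yq p 3) (2,0)) then
            (KT (mab t5 (List.replicate (p - 2) (2,0))).1 (ya 3) : ZMod p) else 0) =
            (KT t5.toFinset (ya 3) : ZMod p) := if_pos rfl
        rw [Fin.sum_univ_four, k1, k2, k3, zero_mul, zero_mul, zero_mul, zero_add, zero_add,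
          zero_add, e, show KT t5.toFinset (ya 3) = 1 by decide] at h5
        rcases mul_eq_zero.1 h5 with h6 | h6
        · exact h1 h6
        · exact one_ne h6
      funext k
      fin_cases k
      · exact k1
      · exact k2
      · exact k3
      · exact k4

/-- Last step: a cocycle below the level of `M1` is a coboundary. -/
theorem step_T0 (h11 : 11 ≤ p) {T : CobP p (2 * (p - 1) + 1)}
    (hT : T ∈ WtP p (2 * (p - 1) + 1) (p ^ 3 + p ^ 2 + p + 2))
    (hd : dP (2 * (p - 1) + 1) T = 0)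
    (hF : T ∈ Fil (muD (2 * p)) (2 * (p - 1) + 1) (l1 p)) :
    ∃ x ∈ WtP p (2 * (p - 1)) (p ^ 3 + p ^ 2 + p + 2), T = dP (2 * (p - 1)) x := by
  have h12 := l1_lt_l2 (p := p) (by omega)
  have hμ : IsMu p (muD (2 * p)) := isMu_muD (by omega) _
  have key : ∀ m, m ≤ l1 p → ∀ T : CobP p (2 * (p - 1) + 1),
      T ∈ WtP p (2 * (p - 1) + 1) (p ^ 3 + p ^ 2 + p + 2) → dP (2 * (p - 1) + 1) T = 0 →
      T ∈ Fil (muD (2 * p)) (2 * (p - 1) + 1) m →
      ∃ x ∈ WtP p (2 * (p - 1)) (p ^ 3 + p ^ 2 + p + 2), T = dP (2 * (p - 1)) x := by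
    intro m
    induction m with
    | zero =>
      intro _ T _ _ h
      rw [Fil_zero_eq, Submodule.mem_bot] at h
      exact ⟨0, Submodule.zero_mem _, by rw [h, map_zero]⟩
    | succ m ih =>
      intro hm T hT hd h
      obtain ⟨y, _, hyW, hy⟩ := exists_sub_mem hμ (by omega) h hT
        (by rw [hd]; exact Submodule.zero_mem _) (fun r h1 h2 h3 => by
          exfalso
          rcases enum_T h11 r h1 h2 with h4 | h4
          · rw [h4, levM_mab _ (by decide), L_m1] at h3
            omega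
          · rw [h4, levM_mab _ (by decide), L_m2] at h3
            omega)
      obtain ⟨y', hy', h'⟩ := ih (by omega) (T - dP _ y) (Submodule.sub_mem _ hT
        (dP_mem_WtP hyW)) (by rw [map_sub, hd, dP_dP, sub_zero]) hy
      exact ⟨y + y', Submodule.add_mem _ hyW hy', by rw [map_add, ← h']; abel⟩
  exact key _ le_rfl T hT hd hF

omit hp in
theorem levM_m1h :
    levM p (muD (2 * p)) (mab ((0,4) :: m1) (List.replicate (p - 3) (1,0))) = l1 p + 1 := by
  rw [levM_mab _ (by decide), ← L_m1 (p := p), la_replicate, la_replicate]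
  simp [muD]
  ring

/-- The product of a cocycle of degree `2p-1` and weight `p^3+p^2+p+2` with `h_{1,4}` is a
coboundary only if the cocycle is one. -/
theorem inj_h14 (h11 : 11 ≤ p) {T B : CobP p (2 * (p - 1) + 1)}
    (hT : T ∈ WtP p (2 * (p - 1) + 1) (p ^ 3 + p ^ 2 + p + 2))
    (hdT : dP (2 * (p - 1) + 1) T = 0)
    (hB : B ∈ WtP p (2 * (p - 1) + 1) (p ^ 4 + p ^ 3 + p ^ 2 + p + 2))
    (hdB : dP (2 * (p - 1) + 1) B = RH (0,4) (2 * (p - 1) + 1) T) :
    ∃ y ∈ WtP p (2 * (p - 1)) (p ^ 3 + p ^ 2 + p + 2), dP (2 * (p - 1)) y = T := by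
  have h12 := l1_lt_l2 (p := p) (by omega)
  have hμ : IsMu p (muD (2 * p)) := isMu_muD (by omega) _
  obtain ⟨x, hx, hxF⟩ := step_T h11 hT hdT
  have h1 : dP (2 * (p - 1) + 1) (RH (0,4) (2 * (p - 1)) x) =
      RH (0,4) (2 * (p - 1) + 1) (dP (2 * (p - 1)) x) := by
    rw [dP_RH, Finset.sum_range_zero, smul_zero, sub_zero]
  have h2 : dP (2 * (p - 1) + 1) (B - RH (0,4) (2 * (p - 1)) x) =
      RH (0,4) (2 * (p - 1) + 1) (T - dP (2 * (p - 1)) x) := by
    rw [map_sub, map_sub, h1, hdB]
  have h3 : RH (0,4) (2 * (p - 1) + 1) (T - dP (2 * (p - 1)) x) ∈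
      Fil (muD (2 * p)) (2 * (p - 1) + 2) (l1 p + 2) := RH_mem hμ hxF (0,4)
  have hxB : RH (0,4) (2 * (p - 1)) x ∈
      WtP p (2 * (p - 1) + 1) (p ^ 4 + p ^ 3 + p ^ 2 + p + 2) := by
    have h := cupP_mem_WtP hx (hP_mem_WtP (p := p) 0 4)
    have h4 : p ^ 3 + p ^ 2 + p + 2 + wD p (0,4) = p ^ 4 + p ^ 3 + p ^ 2 + p + 2 := by
      simp [wD]
      ring
    rw [h4] at h
    exact h
  obtain ⟨y, hy, hyF⟩ := step_B h11 (Submodule.sub_mem _ hB hxB) (by rw [h2]; exact h3)
  have hlev := levM_m1h (p := p)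
  have h5 := Th_dP hμ hyF (r := mab ((0,4) :: m1) (List.replicate (p - 3) (1,0))) (by omega)
  rw [map_sub, dP_dP, sub_zero, h2, Th_RH (by omega), if_pos (by simp [mab])] at h5
  have h6 : Th (2 * (p - 1) + 1) (mab m1 (List.replicate (p - 3) (1,0)))
      (T - dP (2 * (p - 1)) x) = 0 := by
    have h7 : (((mab ((0,4) :: m1) (List.replicate (p - 3) (1,0))).1.erase (0,4),
        (mab ((0,4) :: m1) (List.replicate (p - 3) (1,0))).2) : EI (ℕ × ℕ)) =
        mab m1 (List.replicate (p - 3) (1,0)) := by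
      refine Prod.ext ?_ rfl
      change (((0,4) :: m1).toFinset.erase (0,4)) = m1.toFinset
      decide
    rw [h7] at h5
    exact (mul_eq_zero.1 h5).resolve_left (sg_ne _ _)
  have hxW : T - dP (2 * (p - 1)) x ∈ WtP p (2 * (p - 1) + 1) (p ^ 3 + p ^ 2 + p + 2) :=
    Submodule.sub_mem _ hT (dP_mem_WtP hx)
  have hxd : dP (2 * (p - 1) + 1) (T - dP (2 * (p - 1)) x) = 0 := by
    rw [map_sub, hdT, dP_dP, sub_zero]
  obtain ⟨y2, _, hy2W, hy2F⟩ := exists_sub_mem hμ (by omega) hxF hxW
    (by rw [hxd]; exact Submodule.zero_mem _) (fun r h7 h8 h9 => by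
      rcases enum_T h11 r h7 h8 with h | h
      · rw [h]
        exact h6
      · exfalso
        rw [h, levM_mab _ (by decide), L_m2] at h9
        omega)
  obtain ⟨y3, hy3, h7⟩ := step_T0 h11 (Submodule.sub_mem _ hxW (dP_mem_WtP hy2W))
    (by rw [map_sub, hxd, dP_dP, sub_zero]) hy2F
  refine ⟨x + y2 + y3, Submodule.add_mem _ (Submodule.add_mem _ hx hy2W) hy3, ?_⟩
  rw [map_add, map_add, ← h7]
  abel

/-- The fact `δ`. -/
theorem delta (h11 : 11 ≤ p) : Vale.Agent.P257.H545.InjP p (H134.hP p 1 4)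
    (((p : ℤ) - 1) * p ^ 4) (2 * (p - 1)) (((p : ℤ) - 1) * (Vale.Agent.P257.H314.Wn p 4 + 1)) := by
  have hc : ((p - 1 : ℕ) : ℤ) = (p : ℤ) - 1 := by
    rw [Nat.cast_sub (by omega)]
    simp
  have hw : ((p : ℤ) - 1) * (Vale.Agent.P257.H314.Wn p 4 + 1) =
      ((p - 1 : ℕ) : ℤ) * ((p ^ 3 + p ^ 2 + p + 2 : ℕ) : ℤ) := by
    have h1 : (Vale.Agent.P257.H314.Wn p 4 : ℤ) = 1 + p + p ^ 2 + p ^ 3 := by
      rw [Vale.Agent.P257.H314.Wn]
      simp [Finset.sum_range_succ]
    rw [hc, h1]
    push_cast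
    ring
  have hwv : ((p : ℤ) - 1) * (Vale.Agent.P257.H314.Wn p 4 + 1) + ((p : ℤ) - 1) * p ^ 4 =
      ((p - 1 : ℕ) : ℤ) * ((p ^ 4 + p ^ 3 + p ^ 2 + p + 2 : ℕ) : ℤ) := by
    rw [hw, hc]
    push_cast
    ring
  intro T hT hdT B hB hdB
  rw [hw] at hT ⊢
  rw [hwv] at hB
  obtain ⟨y, hy, h⟩ := inj_h14 h11 (mem_WtP.2 hT) hdT (mem_WtP.2 hB) hdB
  exact ⟨y, mem_WtP.1 hy, h⟩

end Vale.Agent.P257.H319

end
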