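import Vale.Agent.P257.H314.FinCell
import Vale.Agent.P257.H314.Prod
import Vale.Agent.P251.M.CofIn

/-!
# P257, Toda relation, abstract part: obstruction theory along a family over a lens space

* `Coef` : the coefficients `C = S/p` (unital product, `p u = 0`, low-dimensional vanishing);
* `SplitA` : `A = 𝟙 ⊞ 𝟙⟦m⟧`;
* `cov_pr_zero` : the covering is zero modulo the fibre, with coefficients in `C`;
* `cov_eq_of_fib` : two maps to a `C`-module which agree on the fibre agree on the covering;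
* `exists_th` : existence of Thom classes.
-/

open CategoryTheory MonoidalCategory Limits Pretriangulated

universe v u

set_option linter.unusedSectionVars false

namespace Vale.Agent.P257.H319

open Vale.Agent.P251.T Vale.Agent.P251.M Vale.Agent.P251.S Vale.Agent.P251.H Vale.Agent.P257.H314

variable {T : Type u} [Category.{v} T] [Preadditive T] [HasZeroObject T]
    [HasShift T ℤ] [∀ n : ℤ, (shiftFunctor T n).Additive] [Pretriangulated T]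
    [MonoidalCategory T]

/-- `FinCell T S` is closed under extensions. -/
lemma finCell_extClosed (S : Set ℤ) : ExtClosed (FinCell T S) where
  zero X hX := FinCell.zero X hX
  ext D hX hZ := FinCell.ext _ D hX hZ

/-- maps `𝟙⟦k⟧ ⟶ Y⟦e⟧` -/
lemma eq_zero_of_shift {Y : T} {k e : ℤ} (h : ∀ f : (𝟙_ T)⟦k - e⟧ ⟶ Y, f = 0)
    (f : (𝟙_ T)⟦k⟧ ⟶ Y⟦e⟧) : f = 0 := by
  have i : (𝟙_ T)⟦k⟧ ≅ (((𝟙_ T)⟦k - e⟧))⟦e⟧ :=
    (shiftFunctorAdd' T (k - e) e k (by ring)).app (𝟙_ T)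
  obtain ⟨g, hg⟩ := (shiftFunctor T e).map_surjective (i.inv ≫ f)
  rw [h g, Functor.map_zero] at hg
  rw [← cancel_epi i.inv, ← hg, comp_zero]

variable [SymmetricCategory T] [TensorTriangulated T]

/-- maps from a sphere to `X ⊗ C`, `X` a finite complex -/
lemma eq_zero_tensor {S : Set ℤ} {X : T} (hX : FinCell T S X) (C : T) (k : ℤ)
    (h : ∀ e ∈ S, ∀ f : (𝟙_ T)⟦k - e⟧ ⟶ C, f = 0) (f : (𝟙_ T)⟦k⟧ ⟶ X ⊗ C) : f = 0 := by
  induction hX with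
  | zero X hX => exact ((tensorRight C).map_isZero hX).eq_of_tgt _ _
  | sphere e he =>
    have h1 : f ≫ (sphTensor e C).hom = 0 := eq_zero_of_shift (h e he) _
    rw [← cancel_mono (sphTensor e C).hom, h1, zero_comp]
  | ext Δ hΔ _ _ ih₁ ih₃ =>
    have hD := dist_whiskerRight C hΔ
    obtain ⟨g, hg⟩ := Triangle.coyoneda_exact₂ _ hD f (ih₃ _)
    rw [hg, ih₁ g]
    exact zero_comp

/-- The coefficients: an object with a two-sided unital product, killed by `p` on the unit,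
with `π_j C = 0` for `1 ≤ j < r` and for `j < 0`. -/
structure Coef (C : T) (u : 𝟙_ T ⟶ C) (p r : ℤ) extends UProd C u where
  pu : p • u = 0
  van : ∀ j : ℤ, 1 ≤ j → j < r → ∀ f : (𝟙_ T)⟦j⟧ ⟶ C, f = 0
  neg : ∀ j : ℤ, j < 0 → ∀ f : (𝟙_ T)⟦j⟧ ⟶ C, f = 0

/-- A splitting `A = 𝟙 ⊞ 𝟙⟦m⟧`. -/
structure SplitA (A : T) (m : ℤ) where
  /-- the base point -/
  pt : 𝟙_ T ⟶ A
  /-- the section of the top cell -/
  sec : (𝟙_ T)⟦m⟧ ⟶ A
  /-- the projection -/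
  pr : A ⟶ 𝟙_ T
  /-- the projection to the top cell -/
  top : A ⟶ (𝟙_ T)⟦m⟧
  pt_pr : pt ≫ pr = 𝟙 _
  sec_top : sec ≫ top = 𝟙 _
  pt_top : pt ≫ top = 0
  sec_pr : sec ≫ pr = 0
  total : pr ≫ pt + top ≫ sec = 𝟙 A

namespace SplitA

attribute [reassoc (attr := simp)] pt_pr sec_top pt_top sec_pr

variable {A : T} {m : ℤ} (s : SplitA A m)

lemma hom_ext {Y : T} {f g : A ⟶ Y} (h1 : s.pt ≫ f = s.pt ≫ g) (h2 : s.sec ≫ f = s.sec ≫ g) :
    f = g := by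
  rw [← Category.id_comp f, ← Category.id_comp g, ← s.total, Preadditive.add_comp,
    Preadditive.add_comp, Category.assoc, Category.assoc, Category.assoc, Category.assoc, h1, h2]

lemma whisker_ext {X Y : T} {f g : A ⊗ X ⟶ Y} (h1 : (s.pt ▷ X) ≫ f = (s.pt ▷ X) ≫ g)
    (h2 : (s.sec ▷ X) ≫ f = (s.sec ▷ X) ≫ g) : f = g := by
  have h := congrArg (fun k : A ⟶ A => (k ▷ X)) s.total
  simp only [MonoidalPreadditive.add_whiskerRight, comp_whiskerRight, id_whiskerRight] at h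
  rw [← Category.id_comp f, ← Category.id_comp g, ← h, Preadditive.add_comp,
    Preadditive.add_comp, Category.assoc, Category.assoc, Category.assoc, Category.assoc, h1, h2]

end SplitA

/-- maps out of `A ⊗ P`, `P` a sphere, to `Q ⊗ C` -/
lemma eq_zero_A {A P Q C : T} {m d : ℤ} (s : SplitA A m) (e : P ≅ (𝟙_ T)⟦d⟧) {S : Set ℤ}
    (hQ : FinCell T S Q)
    (h1 : ∀ k ∈ S, ∀ f : (𝟙_ T)⟦d - k⟧ ⟶ C, f = 0)
    (h2 : ∀ k ∈ S, ∀ f : (𝟙_ T)⟦d + m - k⟧ ⟶ C, f = 0) (f : A ⊗ P ⟶ Q ⊗ C) : f = 0 := by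
  refine s.whisker_ext ?_ ?_
  · rw [comp_zero]
    have h3 : (e.inv ≫ (λ_ P).inv) ≫ (s.pt ▷ P) ≫ f = 0 := eq_zero_tensor hQ C d h1 _
    rw [← cancel_epi (e.inv ≫ (λ_ P).inv), h3, comp_zero]
  · rw [comp_zero]
    let i : ((𝟙_ T)⟦m⟧) ⊗ P ≅ (𝟙_ T)⟦d + m⟧ := whiskerLeftIso _ e ≪≫ tensorSph d _ ≪≫
      ((shiftFunctorAdd' T m d (d + m) (by ring)).app (𝟙_ T)).symm
    have h3 : i.inv ≫ (s.sec ▷ P) ≫ f = 0 := eq_zero_tensor hQ C (d + m) h2 _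
    rw [← cancel_epi i.inv, h3, comp_zero]

section Cover

variable {C : T} {u : 𝟙_ T ⟶ C} {p r : ℤ} (c : Coef C u p r)

/-- The unit `X ⟶ X ⊗ C`. -/
def un (u : 𝟙_ T ⟶ C) (X : T) : X ⟶ X ⊗ C := (ρ_ X).inv ≫ (X ◁ u)

lemma un_naturality {X Y : T} (f : X ⟶ Y) : f ≫ un u Y = un u X ≫ (f ▷ C) := by
  unfold un
  rw [Category.assoc, whisker_exchange, rightUnitor_inv_naturality_assoc]

include c in
lemma zsmul_un (X : T) : p • un u X = 0 := by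
  have h : X ◁ (p • u) = p • (X ◁ u) :=
    (tensorLeft X).map_zsmul (f := u) (r := p)
  unfold un
  rw [← Preadditive.comp_zsmul, ← h, c.pu]
  simp

/-- action of `C` on free modules -/
def act (c : Coef C u p r) (M : T) : (M ⊗ C) ⊗ C ⟶ M ⊗ C := (α_ M C C).hom ≫ (M ◁ c.m)

lemma un_act (M : T) : un u (M ⊗ C) ≫ act c M = 𝟙 _ := by
  unfold un act
  rw [Category.assoc, associator_naturality_right_assoc, ← MonoidalCategory.whiskerLeft_comp,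
    c.right_unit]
  simp

variable [IsTriangulated T]

variable {A P E : T} (s : SplitA A r) {d : ℤ}

include c s in
/-- The covering is zero modulo the fibre, with coefficients in `C`. -/
theorem cov_pr_zero (e : P ≅ (𝟙_ T)⟦d⟧) {E' K Q : T} {f' : P ⟶ E'} {inc : E' ⟶ E}
    (hf' : CofIn (FinCell T {k | d + 1 ≤ k ∧ k ≤ d + r - 1}) f') {col : E ⟶ K}
    {w : K ⟶ E'⟦(1 : ℤ)⟧} (hK : Dist inc col w) (cov : A ⊗ P ⟶ E) (g : A ⊗ P ⟶ K)
    (hg : cov ≫ col = p • g) {π : E ⟶ Q} {δ : Q ⟶ P⟦(1 : ℤ)⟧} (hQ : Dist (f' ≫ inc) π δ) :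
    cov ≫ π ≫ un u Q = 0 := by
  obtain ⟨Q', a, b, D', hQ'⟩ := hf'
  obtain ⟨m₁, m₃, -, -, h3, -, O⟩ := exists_octa (rfl : f' ≫ inc = f' ≫ inc) D' hK hQ
  have hO := dist_whiskerRight C O
  have h0 : (cov ≫ π ≫ un u Q) ≫ (m₃ ▷ C) = 0 := by
    rw [Category.assoc, Category.assoc, ← un_naturality, reassoc_of% h3, ← Category.assoc, hg,
      Preadditive.zsmul_comp, ← Preadditive.comp_zsmul, zsmul_un c, comp_zero]
  obtain ⟨y, hy⟩ : ∃ y : A ⊗ P ⟶ Q' ⊗ C, cov ≫ π ≫ un u Q = y ≫ (m₁ ▷ C) :=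
    Triangle.coyoneda_exact₂ _ hO _ h0
  have hy0 : y = 0 := by
    refine eq_zero_A s e hQ' ?_ ?_ y
    · rintro k ⟨h1, h2⟩
      exact c.neg _ (by omega)
    · rintro k ⟨h1, h2⟩
      exact c.van _ (by omega) (by omega)
  rw [hy, hy0]
  exact zero_comp

include c s in
/-- Two maps to a free `C`-module which agree on the fibre agree on the covering. -/
theorem cov_eq_of_fib (e : P ≅ (𝟙_ T)⟦d⟧) {E' K : T} {f' : P ⟶ E'} {inc : E' ⟶ E}
    (hf' : CofIn (FinCell T {k | d + 1 ≤ k ∧ k ≤ d + r - 1}) f') {col : E ⟶ K}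
    {w : K ⟶ E'⟦(1 : ℤ)⟧} (hK : Dist inc col w) (cov : A ⊗ P ⟶ E) (g : A ⊗ P ⟶ K)
    (hg : cov ≫ col = p • g) {M : T} {D₁ D₂ : E ⟶ M ⊗ C}
    (h : f' ≫ inc ≫ D₁ = f' ≫ inc ≫ D₂) : cov ≫ D₁ = cov ≫ D₂ := by
  obtain ⟨Q, π, δ, hQ⟩ := exists_cone (f' ≫ inc)
  have h1 : (f' ≫ inc) ≫ (D₁ - D₂) = 0 := by
    rw [Preadditive.comp_sub, Category.assoc, Category.assoc, h, sub_self]
  obtain ⟨D', hD'⟩ : ∃ D' : Q ⟶ M ⊗ C, D₁ - D₂ = π ≫ D' :=
    Triangle.yoneda_exact₂ _ hQ (D₁ - D₂) h1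
  have h2 : D' = un u Q ≫ (D' ▷ C) ≫ act c M := by
    rw [← Category.assoc, ← un_naturality, Category.assoc, un_act, Category.comp_id]
  have h3 : cov ≫ (D₁ - D₂) = 0 := by
    rw [hD', h2]
    have h5 := cov_pr_zero c s e hf' hK cov g hg hQ
    rw [reassoc_of% h5, zero_comp]
  rwa [Preadditive.comp_sub, sub_eq_zero] at h3

include c in
/-- Existence of Thom classes: extension from the part over the circle. -/
theorem exists_th (e : P ≅ (𝟙_ T)⟦d⟧) {E₁ : T} {f₁ : P ⟶ E₁} {inc₁ : E₁ ⟶ E} (r₁ : E₁ ⟶ P)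
    (hr : f₁ ≫ r₁ = 𝟙 P) (hi : CofIn (FinCell T {k | d + 2 ≤ k ∧ k ≤ d + r}) inc₁) :
    ∃ th : E ⟶ P ⊗ C, f₁ ≫ inc₁ ≫ th = un u P := by
  obtain ⟨Z, a, b, D, hZ⟩ := hi
  have hP : FinCell T {d} P := FinCell.of_iso e.symm (FinCell.sphere d rfl)
  have h0 : b ≫ (r₁ ≫ un u P)⟦(1 : ℤ)⟧' = 0 := by
    refine hZ.eq_zero ?_ _
    rintro k ⟨h1, h2⟩ f
    refine eq_zero_of_shift (fun f' => ?_) f
    refine eq_zero_tensor hP C _ ?_ f'
    rintro j hj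
    rw [Set.mem_singleton_iff] at hj
    subst hj
    exact c.van _ (by omega) (by omega)
  obtain ⟨th, hth⟩ := exists_extend _ D (r₁ ≫ un u P) h0
  have hth' : inc₁ ≫ th = r₁ ≫ un u P := hth
  exact ⟨th, by rw [hth', reassoc_of% hr]⟩

end Cover

end Vale.Agent.P257.H319
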