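import Vale.Agent.P257.H319.TSphere
import Vale.Agent.P257.H709.Relation

/-!
# P257, Toda relation: the final step

* `nonempty_coef` : the coefficients `S/p`, `r = 2 p - 3`;
* `Fam.co_of_o_eq_zero` : if `o = 0` then `co` is the constant map;
* `Sys` : a system of families with fibres the suspension spectra of `(ℂ^W)^J`, natural and
  additive; `Sys.main` : `m • (f^J ⊗ o) = 0` for `f : ℂ^{n + m} ⟶ ℂ^n`;
* `Sys.exists_div` : the Toda relation in the form `TodaRel`.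
-/

open CategoryTheory MonoidalCategory Limits Pretriangulated Topology
open Functor.LaxMonoidal Functor.OplaxMonoidal Functor.Monoidal
open Vale.Agent.P251.T Vale.Agent.P251.M Vale.Agent.P251.S Vale.Agent.P251.H Vale.Agent.P257.H314
open Vale.Agent.P251 Vale.Agent.P251.G Vale.Agent.P251.G.LC Vale.Agent.P251.I
  Vale.Agent.P251.G.Cell Vale.Agent.P251.F Vale.Agent.P251.B
open Vale.Agent.P257.H709 Vale.Agent.P257.H762

universe v u

set_option linter.unusedSectionVars false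

noncomputable section

namespace Vale.Agent.P257.H319

section tt

variable {T : Type u} [Category.{v} T] [Preadditive T] [HasZeroObject T]
    [HasShift T ℤ] [∀ n : ℤ, (shiftFunctor T n).Additive] [Pretriangulated T]
    [MonoidalCategory T] [SymmetricCategory T] [TensorTriangulated T]

variable {C : T} {u : 𝟙_ T ⟶ C} {A : T} {r : ℤ} {s : SplitA A r}

lemma Fam.co_decomp {P : T} (Φ : Fam C u s P) : Φ.co = s.pr ≫ u + s.top ≫ Φ.o := by
  have h : s.pr ≫ s.pt ≫ Φ.co + s.top ≫ Φ.o = Φ.co := by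
    rw [Fam.o, ← Category.assoc, ← Category.assoc, ← Preadditive.add_comp, s.total,
      Category.id_comp]
  rw [Φ.pt_co] at h
  exact h.symm

/-- If the class `o` vanishes, then Thom classes are constant on the covering. -/
lemma Fam.co_of_o_eq_zero {P : T} (Φ : Fam C u s P) (h : Φ.o = 0) : Φ.co = s.pr ≫ u := by
  rw [Φ.co_decomp, h, comp_zero, add_zero]

/-- Criterion for `o ≠ 0`. -/
lemma Fam.o_ne_zero {P : T} (Φ : Fam C u s P) {th : Φ.E ⟶ P ⊗ C} (hth : Φ.fib ≫ th = un u P)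
    (hne : Φ.cov ≫ th ≠ (β_ A P).hom ≫ (P ◁ (s.pr ≫ u))) : Φ.o ≠ 0 := by
  intro h
  apply hne
  rw [Φ.cov_th hth, Φ.co_of_o_eq_zero h]

variable (F : SpaceFunctor T) (J : Type) [Fintype J]

/-- the fibre -/
abbrev PowF (W : Type) [Fintype W] [DecidableEq W] (hW : FC (powObj J (LC.of (W → ℂ)))) : FCat :=
  ⟨powObj J (LC.of (W → ℂ)), hW⟩

/-- A system of families. -/
structure Sys (s : SplitA A r) (u : 𝟙_ T ⟶ C) where
  fc : ∀ (W : Type) [Fintype W] [DecidableEq W], FC (powObj J (LC.of (W → ℂ)))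
  /-- the families -/
  fam : ∀ (W : Type) [Fintype W] [DecidableEq W], Fam C u s (F.S.obj (PowF J W (fc W)))
  /-- naturality -/
  nat : ∀ (W W' : Type) [Fintype W] [DecidableEq W] [Fintype W'] [DecidableEq W']
    (f : LC.of (W → ℂ) ⟶ LC.of (W' → ℂ)),
    F.S.map (FCat.hom (X := PowF J W (fc W)) (Y := PowF J W' (fc W')) (powHom J f)) ⊗ₘ
      (fam W).o =
    F.S.map (FCat.hom (X := PowF J W (fc W)) (Y := PowF J W' (fc W')) (powHom J f)) ⊗ₘ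
      (fam W').o
  /-- additivity -/
  add : ∀ (W W' : Type) [Fintype W] [DecidableEq W] [Fintype W'] [DecidableEq W'],
    (fam (W ⊕ W')).o = (fam W).o + (fam W').o

namespace Sys

variable {F J} {s : SplitA A r} {u : 𝟙_ T ⟶ C} (G : Sys F J s u)

/-- the map of fibres -/
abbrev Sm (W W' : Type) [Fintype W] [DecidableEq W] [Fintype W'] [DecidableEq W']
    (f : LC.of (W → ℂ) ⟶ LC.of (W' → ℂ)) :
    F.S.obj (PowF J W (G.fc W)) ⟶ F.S.obj (PowF J W' (G.fc W')) :=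
  F.S.map (FCat.hom (X := PowF J W (G.fc W)) (Y := PowF J W' (G.fc W')) (powHom J f))

lemma o_equiv {W W' : Type} [Fintype W] [DecidableEq W] [Fintype W'] [DecidableEq W']
    (e : W ≃ W') : (G.fam W).o = (G.fam W').o := by
  let f : LC.of (W → ℂ) ≅ LC.of (W' → ℂ) :=
    ofHomeo (X := LC.of (W → ℂ)) (Y := LC.of (W' → ℂ)) (Homeomorph.piCongrLeft (Y := fun _ => ℂ) e)
  have h1 : G.Sm W W' f.hom ≫ G.Sm W' W f.inv = 𝟙 _ := by
    rw [← Functor.map_comp, ← F.S.map_id]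
    congr 1
    apply ObjectProperty.hom_ext
    change powHom J f.hom ≫ powHom J f.inv = 𝟙 _
    rw [← powHom_comp, Iso.hom_inv_id, powHom_id]
  have h2 : G.Sm W' W f.inv ≫ G.Sm W W' f.hom = 𝟙 _ := by
    rw [← Functor.map_comp, ← F.S.map_id]
    congr 1
    apply ObjectProperty.hom_ext
    change powHom J f.inv ≫ powHom J f.hom = 𝟙 _
    rw [← powHom_comp, Iso.inv_hom_id, powHom_id]
  have hi : IsIso (G.Sm W W' f.hom) := ⟨_, h1, h2⟩
  have h := G.nat W W' f.hom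
  change G.Sm W W' f.hom ⊗ₘ _ = G.Sm W W' f.hom ⊗ₘ _ at h
  rw [tensorHom_def', tensorHom_def', cancel_mono] at h
  exact ((G.fam W).bij _ _).1 h

lemma o_fin (m : ℕ) : (G.fam (Fin m)).o = (m : ℤ) • (G.fam Unit).o := by
  induction m with
  | zero =>
    have h := G.add (Fin 0) (Fin 0)
    rw [G.o_equiv (Equiv.equivOfIsEmpty (Fin 0 ⊕ Fin 0) (Fin 0))] at h
    have h2 : (G.fam (Fin 0)).o = 0 := by
      have h3 := congrArg (fun x => x - (G.fam (Fin 0)).o) h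
      simpa using h3.symm
    rw [h2]
    simp
  | succ m ih =>
    have e : Fin (m + 1) ≃ Fin m ⊕ Unit :=
      (finSumFinEquiv (m := m) (n := 1)).symm.trans (Equiv.sumCongr (Equiv.refl _) finOneEquiv)
    rw [G.o_equiv e, G.add, ih]
    push_cast
    rw [add_smul, one_smul]

lemma tensor_zsmul' {A B A' B' : T} (n : ℤ) (f : A ⟶ B) (g : A' ⟶ B') :
    f ⊗ₘ (n • g) = n • (f ⊗ₘ g) := by
  rw [MonoidalCategory.tensorHom_def, MonoidalCategory.tensorHom_def]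
  have h : B ◁ (n • g) = n • (B ◁ g) := (tensorLeft B).map_zsmul (f := g) (r := n)
  rw [h, Preadditive.comp_zsmul]

/-- **The conclusion of the obstruction theory.** -/
theorem main (n m : ℕ) (f : LC.of (Fin n ⊕ Fin m → ℂ) ⟶ LC.of (Fin n → ℂ)) :
    (m : ℤ) • (G.Sm _ _ f ⊗ₘ (G.fam Unit).o) = 0 := by
  have h := G.nat _ _ f
  have h1 : (G.fam (Fin m)).o = (G.fam (Fin n ⊕ Fin m)).o - (G.fam (Fin n)).o := by
    rw [G.add]
    abel
  rw [← tensor_zsmul', ← G.o_fin, h1]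
  have h2 : G.Sm _ _ f ⊗ₘ ((G.fam (Fin n ⊕ Fin m)).o - (G.fam (Fin n)).o) =
      G.Sm _ _ f ⊗ₘ (G.fam (Fin n ⊕ Fin m)).o - G.Sm _ _ f ⊗ₘ (G.fam (Fin n)).o := by
    rw [MonoidalCategory.tensorHom_def, MonoidalCategory.tensorHom_def, MonoidalCategory.tensorHom_def, ← Preadditive.comp_sub]
    congr 1
    exact (tensorLeft _).map_sub
  rw [h2, sub_eq_zero]
  exact h

end Sys

end tt

section

variable {T : Type u} [Category.{v} T] [Preadditive T] [HasZeroObject T]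
    [HasShift T ℤ] [∀ n : ℤ, (shiftFunctor T n).Additive] [Pretriangulated T]
    [MonoidalCategory T] [SymmetricCategory T] [TensorTriangulated T] [HasCoproducts.{0} T]
    [MonoidalClosed T] [IsTriangulated T] [HasProducts.{0} T] [StableCat T] (F : SpaceFunctor T)
  (D : MUData T) (U : UnitCof D.R) {p : ℕ} [Fact p.Prime] (hp : p ≠ 2)
  {C : T} {i : 𝟙_ T ⟶ C} {δ : C ⟶ (𝟙_ T)⟦(1 : ℤ)⟧}
  (hC : Triangle.mk ((p : ℤ) • 𝟙 (𝟙_ T)) i δ ∈ distTriang T)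

include F D hp hC

include U in
/-- The coefficients. -/
theorem nonempty_coef : Nonempty (Coef C i p (2 * (p : ℤ) - 3)) := by
  have hp2 := (Fact.out : p.Prime).two_le
  have hp3 : (3 : ℤ) ≤ p := by
    have : 3 ≤ p := by omega
    exact_mod_cast this
  have h1 : ∀ f : (𝟙_ T)⟦(1 : ℤ)⟧ ⟶ C, f = 0 := fun f => pi_low D U hp hC (by omega) (by omega) f
  obtain ⟨m, hl, hr⟩ := exists_unital_product hC h1
  refine ⟨⟨⟨m, hr, hl⟩, zsmul_unit hC, ?_, ?_⟩⟩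
  · intro j h1 h2 f
    exact pi_low D U hp hC h1 (by omega) f
  · intro j hj f
    have hc := unit_conn F
    have h2 : f ≫ δ = 0 := by
      refine eq_zero_of_shift (fun f' => hc _ (by omega) f') _
    obtain ⟨g, hg⟩ : ∃ g : (𝟙_ T)⟦j⟧ ⟶ 𝟙_ T, f = g ≫ i :=
      Triangle.coyoneda_exact₃ _ hC f h2
    rw [hg, hc j hj g, zero_comp]

/-- **The Toda relation.** -/
theorem Sys.exists_div {v w : ℤ} (hv : v = (p - 1 : ℕ)) (hw : w = (p * (p - 1) : ℕ))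
    {t : Cob Laz 1} (ht : IsT1 p t) (htw : Cob.IsWt v t)
    (a : (𝟙_ T)⟦2 * v⟧ ⟶ U.cobar.B 1 (𝟙_ T))
    (ha : ((sphE T v).inv ≫ D.phi U 1 v ⟨t, htw⟩) ≫ U.cobar.q 1 (𝟙_ T) = a ≫ unitMap D.R _)
    (β : (𝟙_ T)⟦2 * w⟧ ⟶ ((𝟙_ T)⟦(1 : ℤ)⟧)⟦(1 : ℤ)⟧)
    {A : T} {s : SplitA A (2 * (p : ℤ) - 3)} (G : Sys F (Fin p) s i)
    (ho : (G.fam Unit).o ≠ 0) :
    ∃ g, (p : ℤ) • g = tSm (𝟙 (𝟙_ T)) β p ⊗ₘ (a ≫ U.bd 0 (𝟙_ T)) := by
  have hp2 := (Fact.out : p.Prime).two_le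
  let o := (G.fam Unit).o
  let O := ((𝟙_ T)⟦2 * (p : ℤ) - 3⟧) ⊗ ((𝟙_ T)⟦(1 : ℤ)⟧)
  let O' := C ⊗ ((𝟙_ T)⟦(1 : ℤ)⟧)
  refine exists_div_of_pow F D U hp hC hv hw ht htw a ha β (O := O) (O' := O')
    (o ▷ ((𝟙_ T)⟦(1 : ℤ)⟧)) ?_ (tensorSph 1 C) ?_ ?_
  · exact tensorSph 1 _ ≪≫ ((shiftFunctorAdd' T (2 * (p : ℤ) - 3) 1 (2 * v) (by
      rw [hv, Nat.cast_sub (by omega)]
      push_cast
      ring)).app (𝟙_ T)).symm
  · intro h
    exact ho (eq_zero_of_whiskerRight_shift o 1 h)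
  · intro n m f hX hY
    have h := G.main n m f
    have h2 : G.Sm _ _ f ⊗ₘ (o ▷ ((𝟙_ T)⟦(1 : ℤ)⟧)) = (α_ _ _ _).inv ≫
        ((G.Sm _ _ f ⊗ₘ o) ▷ ((𝟙_ T)⟦(1 : ℤ)⟧)) ≫ (α_ _ _ _).hom := by
      rw [← tensorHom_id, ← tensorHom_id, associator_naturality, Iso.inv_hom_id_assoc]
    change (m : ℤ) • (G.Sm _ _ f ⊗ₘ (o ▷ ((𝟙_ T)⟦(1 : ℤ)⟧))) = 0
    rw [h2, ← Preadditive.comp_zsmul, ← Preadditive.zsmul_comp]
    have h3 : (m : ℤ) • ((G.Sm _ _ f ⊗ₘ o) ▷ ((𝟙_ T)⟦(1 : ℤ)⟧)) =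
        ((m : ℤ) • (G.Sm _ _ f ⊗ₘ o)) ▷ ((𝟙_ T)⟦(1 : ℤ)⟧) :=
      ((tensorRight ((𝟙_ T)⟦(1 : ℤ)⟧)).map_zsmul (f := G.Sm _ _ f ⊗ₘ o) (r := (m : ℤ))).symm
    rw [h3, h, MonoidalPreadditive.zero_whiskerRight, zero_comp, comp_zero]

end

end Vale.Agent.P257.H319
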