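import Vale.Agent.P257.H319.TBase

/-!
# P257, Toda relation, abstract part: the class `o` of a family over a lens space

* `Fam` : a family `E` with fibre the sphere `P` and covering `cov : A ⊗ P ⟶ E`, with the two
  statements of obstruction theory as fields;
* `Fam.ofCells` : the fields from the cell structure;
* `Fam.co : A ⟶ C`, `Fam.o : 𝟙⟦r⟧ ⟶ C`;
* `Fam.co_natural` : naturality of `co` in maps of families (over a map of the fibres);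
* `Fam.co_add`, `Fam.o_add` : additivity.
-/

open CategoryTheory MonoidalCategory Limits Pretriangulated

universe v u

set_option linter.unusedSectionVars false

namespace Vale.Agent.P257.H319

open Vale.Agent.P251.T Vale.Agent.P251.M Vale.Agent.P251.S Vale.Agent.P251.H Vale.Agent.P257.H314

variable {T : Type u} [Category.{v} T] [Preadditive T] [HasZeroObject T]
    [HasShift T ℤ] [∀ n : ℤ, (shiftFunctor T n).Additive] [Pretriangulated T]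
    [MonoidalCategory T] [SymmetricCategory T] [TensorTriangulated T]

/-- Tensoring with a sphere is bijective on morphisms. -/
lemma whiskerLeft_bij {P : T} {d : ℤ} (e : P ≅ (𝟙_ T)⟦d⟧) (X Y : T) :
    Function.Bijective (fun f : X ⟶ Y => P ◁ f) := by
  have key : ∀ f : X ⟶ Y, P ◁ f = (e.hom ▷ X) ≫ (sphTensor d X).hom ≫ f⟦d⟧' ≫
      (sphTensor d Y).inv ≫ (e.inv ▷ Y) := by
    intro f
    rw [← sphTensor_naturality_assoc, Iso.hom_inv_id_assoc, ← whisker_exchange_assoc,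
      ← comp_whiskerRight, Iso.hom_inv_id, id_whiskerRight, Category.comp_id]
  constructor
  · intro f g h
    simp only [key] at h
    rw [cancel_epi, cancel_epi] at h
    have h2 := (cancel_mono _).1 h
    exact (shiftFunctor T d).map_injective h2
  · intro g
    obtain ⟨f, hf⟩ := (shiftFunctor T d).map_surjective
      ((sphTensor d X).inv ≫ (e.inv ▷ X) ≫ g ≫ (e.hom ▷ Y) ≫ (sphTensor d Y).hom)
    refine ⟨f, ?_⟩
    simp only [key]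
    rw [hf]
    simp

@[reassoc]
lemma braiding_tensorμ' (X₁ X₂ Y₁ Y₂ : T) :
    (β_ (X₁ ⊗ X₂) (Y₁ ⊗ Y₂)).hom ≫ tensorμ Y₁ Y₂ X₁ X₂ =
      tensorμ X₁ X₂ Y₁ Y₂ ≫ ((β_ X₁ Y₁).hom ⊗ₘ (β_ X₂ Y₂).hom) := by
  simp [tensorμ, SymmetricCategory.braiding_swap_eq_inv_braiding X₁ Y₂, tensorHom_def]

variable {C : T} {u : 𝟙_ T ⟶ C} {p r : ℤ} {A : T}

/-- A family with fibre `P`, covered by `A ⊗ P`. -/
structure Fam (C : T) (u : 𝟙_ T ⟶ C) {A : T} {r : ℤ} (s : SplitA A r) (P : T) where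
  bij : ∀ X Y : T, Function.Bijective (fun f : X ⟶ Y => P ◁ f)
  /-- the total space -/
  E : T
  /-- the covering -/
  cov : A ⊗ P ⟶ E
  /-- the fibre -/
  fib : P ⟶ E
  pt_cov : (s.pt ▷ P) ≫ cov = (λ_ P).hom ≫ fib
  ex : ∃ th : E ⟶ P ⊗ C, fib ≫ th = un u P
  uniq : ∀ {M : T} {D₁ D₂ : E ⟶ M ⊗ C}, fib ≫ D₁ = fib ≫ D₂ → cov ≫ D₁ = cov ≫ D₂

/-- Construction from the cell structure. -/
def Fam.ofCells [IsTriangulated T] (c : Coef C u p r) (s : SplitA A r) {P E : T} {d : ℤ}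
    (e : P ≅ (𝟙_ T)⟦d⟧) (cov : A ⊗ P ⟶ E) (fib : P ⟶ E)
    (pt_cov : (s.pt ▷ P) ≫ cov = (λ_ P).hom ≫ fib)
    {E' K : T} {f' : P ⟶ E'} {inc : E' ⟶ E} (hfib : f' ≫ inc = fib)
    (hf' : CofIn (FinCell T {k | d + 1 ≤ k ∧ k ≤ d + r - 1}) f') {col : E ⟶ K}
    {w : K ⟶ E'⟦(1 : ℤ)⟧} (hK : Dist inc col w) (g : A ⊗ P ⟶ K)
    (hg : cov ≫ col = p • g)
    {E₁ : T} {f₁ : P ⟶ E₁} {inc₁ : E₁ ⟶ E} (hfib₁ : f₁ ≫ inc₁ = fib) (r₁ : E₁ ⟶ P)
    (hr : f₁ ≫ r₁ = 𝟙 P) (hi : CofIn (FinCell T {k | d + 2 ≤ k ∧ k ≤ d + r}) inc₁) :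
    Fam C u s P where
  bij := whiskerLeft_bij e
  E := E
  cov := cov
  fib := fib
  pt_cov := pt_cov
  ex := by
    obtain ⟨th, hth⟩ := exists_th c e r₁ hr hi
    exact ⟨th, by rw [← hfib₁, Category.assoc, hth]⟩
  uniq := by
    intro M D₁ D₂ h
    refine cov_eq_of_fib c s e hf' hK cov g hg ?_
    rw [← Category.assoc, ← Category.assoc, hfib]
    exact h

namespace Fam

variable {s : SplitA A r} {P : T} (F : Fam C u s P)

/-- a Thom class -/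
noncomputable def th : F.E ⟶ P ⊗ C := F.ex.choose

lemma fib_th : F.fib ≫ F.th = un u P := F.ex.choose_spec

lemma exists_co : ∃ co : A ⟶ C, F.cov ≫ F.th = (β_ A P).hom ≫ (P ◁ co) := by
  obtain ⟨co, hco⟩ := (F.bij A C).2 ((β_ A P).inv ≫ F.cov ≫ F.th)
  refine ⟨co, ?_⟩
  have h : P ◁ co = (β_ A P).inv ≫ F.cov ≫ F.th := hco
  rw [h, Iso.hom_inv_id_assoc]

/-- The restriction of a Thom class to the covering. -/
noncomputable def co : A ⟶ C := F.exists_co.choose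

/-- It does not depend on the Thom class. -/
lemma cov_th {th : F.E ⟶ P ⊗ C} (h : F.fib ≫ th = un u P) :
    F.cov ≫ th = (β_ A P).hom ≫ (P ◁ F.co) := by
  have h1 : F.cov ≫ F.th = (β_ A P).hom ≫ (P ◁ F.co) := F.exists_co.choose_spec
  rw [← h1]
  exact F.uniq (h.trans F.fib_th.symm)

lemma pt_comp {th : F.E ⟶ P ⊗ C} {co : A ⟶ C} (h : F.cov ≫ th = (β_ A P).hom ≫ (P ◁ co)) :
    F.fib ≫ th = (ρ_ P).inv ≫ (P ◁ (s.pt ≫ co)) := by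
  have h1 : (λ_ P).hom ≫ F.fib ≫ th = (s.pt ▷ P) ≫ F.cov ≫ th := by
    rw [← Category.assoc, ← F.pt_cov, Category.assoc]
  rw [← cancel_epi (λ_ P).hom, h1, h, BraidedCategory.braiding_naturality_left_assoc,
    MonoidalCategory.whiskerLeft_comp, braiding_tensorUnit_left, Category.assoc]

@[reassoc]
lemma pt_co : s.pt ≫ F.co = u := by
  have h := F.pt_comp (F.cov_th F.fib_th)
  rw [F.fib_th, un, cancel_epi] at h
  exact ((F.bij _ _).1 h).symm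

/-- Recognition of `co`. -/
lemma co_eq {th : F.E ⟶ P ⊗ C} {co : A ⟶ C} (h : F.cov ≫ th = (β_ A P).hom ≫ (P ◁ co))
    (hpt : s.pt ≫ co = u) : F.co = co := by
  have h1 := F.pt_comp h
  rw [hpt] at h1
  have h2 := F.cov_th h1
  rw [h, cancel_epi] at h2
  exact ((F.bij _ _).1 h2).symm

/-- The class of a family. -/
noncomputable def o : (𝟙_ T)⟦r⟧ ⟶ C := s.sec ≫ F.co

/-- Naturality. -/
theorem co_natural {P₁ P₂ : T} (F₁ : Fam C u s P₁) (F₂ : Fam C u s P₂) (φ : P₁ ⟶ P₂)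
    (Φ : F₁.E ⟶ F₂.E) (h : F₁.cov ≫ Φ = (A ◁ φ) ≫ F₂.cov) : φ ⊗ₘ F₁.co = φ ⊗ₘ F₂.co := by
  have hfib : F₁.fib ≫ Φ = φ ≫ F₂.fib := by
    rw [← cancel_epi (λ_ P₁).hom, ← Category.assoc, ← F₁.pt_cov, Category.assoc, h,
      ← whisker_exchange_assoc, F₂.pt_cov, leftUnitor_naturality_assoc]
  have h1 : F₁.fib ≫ (Φ ≫ F₂.th) = F₁.fib ≫ (F₁.th ≫ (φ ▷ C)) := by
    rw [← Category.assoc, hfib, Category.assoc, F₂.fib_th, ← Category.assoc, F₁.fib_th,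
      un_naturality]
  have h2 := F₁.uniq h1
  rw [← Category.assoc, h, Category.assoc, F₂.cov_th F₂.fib_th, ← Category.assoc, ← Category.assoc,
    F₁.cov_th F₁.fib_th, BraidedCategory.braiding_naturality_right, Category.assoc, Category.assoc,
    cancel_epi] at h2
  rw [tensorHom_def' φ F₁.co, ← h2, ← tensorHom_def]

lemma tensor_o {P₁ P₂ : T} (F₁ : Fam C u s P₁) (F₂ : Fam C u s P₂) (φ : P₁ ⟶ P₂)
    (h : φ ⊗ₘ F₁.co = φ ⊗ₘ F₂.co) : φ ⊗ₘ F₁.o = φ ⊗ₘ F₂.o := by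
  have h1 : ∀ x : A ⟶ C, φ ⊗ₘ (s.sec ≫ x) = (P₁ ◁ s.sec) ≫ (φ ⊗ₘ x) := by
    intro x
    rw [← id_tensorHom, tensorHom_comp_tensorHom, Category.id_comp]
  rw [o, o, h1, h1, h]

/-- Isomorphic families have the same class. -/
theorem co_eq_of_iso {P₁ P₂ : T} (F₁ : Fam C u s P₁) (F₂ : Fam C u s P₂) (φ : P₁ ⟶ P₂) [IsIso φ]
    (Φ : F₁.E ⟶ F₂.E) (h : F₁.cov ≫ Φ = (A ◁ φ) ≫ F₂.cov) : F₁.co = F₂.co := by
  have h1 := co_natural F₁ F₂ φ Φ h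
  rw [tensorHom_def', tensorHom_def', cancel_mono] at h1
  exact (F₁.bij _ _).1 h1

/-- Additivity, on the covering. -/
theorem co_add (c : Coef C u p r) {P₁ P₂ P₃ : T} (F₁ : Fam C u s P₁) (F₂ : Fam C u s P₂)
    (F₃ : Fam C u s P₃) (j : P₃ ≅ P₁ ⊗ P₂) (δ : A ⟶ A ⊗ A) (Δ : F₃.E ⟶ F₁.E ⊗ F₂.E)
    (hpt : s.pt ≫ δ = (λ_ (𝟙_ T)).inv ≫ (s.pt ⊗ₘ s.pt))
    (hΔ : F₃.cov ≫ Δ = (δ ⊗ₘ j.hom) ≫ tensorμ A A P₁ P₂ ≫ (F₁.cov ⊗ₘ F₂.cov)) :
    F₃.co = δ ≫ (F₁.co ⊗ₘ F₂.co) ≫ c.m := by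
  have hμ : tensorμ P₁ P₂ C C ≫ tensorμ P₁ C P₂ C = 𝟙 _ := by
    have h : tensorμ P₁ C P₂ C = tensorδ P₁ P₂ C C := by
      unfold tensorμ tensorδ
      rw [SymmetricCategory.braiding_swap_eq_inv_braiding]
    rw [h, tensorμ_tensorδ]
  refine F₃.co_eq (th := Δ ≫ (F₁.th ⊗ₘ F₂.th) ≫ tensorμ P₁ C P₂ C ≫ (j.inv ⊗ₘ c.m)) ?_ ?_
  · rw [← Category.assoc F₃.cov, hΔ]
    have h1 : (F₁.cov ⊗ₘ F₂.cov) ≫ (F₁.th ⊗ₘ F₂.th) =
        ((β_ A P₁).hom ⊗ₘ (β_ A P₂).hom) ≫ ((P₁ ◁ F₁.co) ⊗ₘ (P₂ ◁ F₂.co)) := by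
      rw [tensorHom_comp_tensorHom, tensorHom_comp_tensorHom, F₁.cov_th F₁.fib_th,
        F₂.cov_th F₂.fib_th]
    simp only [Category.assoc]
    rw [reassoc_of% h1, ← braiding_tensorμ'_assoc, ← tensorμ_natural_right_assoc, reassoc_of% hμ,
      BraidedCategory.braiding_naturality_assoc]
    congr 1
    rw [← id_tensorHom, ← id_tensorHom, tensorHom_comp_tensorHom, tensorHom_comp_tensorHom,
      Category.id_comp, Iso.hom_inv_id]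
  · rw [reassoc_of% hpt, tensorHom_comp_tensorHom_assoc, F₁.pt_co, F₂.pt_co, tensorHom_def,
      Category.assoc, c.right_unit, rightUnitor_naturality, unitors_inv_equal,
      Iso.inv_hom_id_assoc]

/-- Additivity. -/
theorem o_add (c : Coef C u p r) {P₁ P₂ P₃ : T} (F₁ : Fam C u s P₁) (F₂ : Fam C u s P₂)
    (F₃ : Fam C u s P₃) (j : P₃ ≅ P₁ ⊗ P₂) (δ : A ⟶ A ⊗ A) (Δ : F₃.E ⟶ F₁.E ⊗ F₂.E)
    (hpt : s.pt ≫ δ = (λ_ (𝟙_ T)).inv ≫ (s.pt ⊗ₘ s.pt))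
    (hsec : s.sec ≫ δ = (ρ_ _).inv ≫ (s.sec ⊗ₘ s.pt) + (λ_ _).inv ≫ (s.pt ⊗ₘ s.sec))
    (hΔ : F₃.cov ≫ Δ = (δ ⊗ₘ j.hom) ≫ tensorμ A A P₁ P₂ ≫ (F₁.cov ⊗ₘ F₂.cov)) :
    F₃.o = F₁.o + F₂.o := by
  rw [o, co_add c F₁ F₂ F₃ j δ Δ hpt hΔ, reassoc_of% hsec, Preadditive.add_comp, Category.assoc,
    Category.assoc, tensorHom_comp_tensorHom_assoc, tensorHom_comp_tensorHom_assoc, F₁.pt_co,
    F₂.pt_co]
  congr 1
  · rw [tensorHom_def, Category.assoc, c.right_unit, rightUnitor_naturality,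
      Iso.inv_hom_id_assoc]
    rfl
  · rw [tensorHom_def', Category.assoc, c.left_unit, leftUnitor_naturality,
      Iso.inv_hom_id_assoc]
    rfl

end Fam

end Vale.Agent.P257.H319
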