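import Vale.Agent.P257.H319.TSplit
import Vale.Agent.P251.G.Polar
import Vale.Agent.P251.G.CellInst

/-!
# P257, Toda relation: the splitting of the suspension spectrum of `S(ℂ^κ)`

* `prSS : S(ℂ^κ) ⟶ 𝟙`, `zeroSS : 𝟙 ⟶ ℂ^κ`, `connSS : ℂ^κ ⟶ S(ℂ^κ) ⊗ ℝ` : the cofibre sequence of
  the sphere (polar coordinates), `isPushout_SS`;
* `distSS` : its triangle;
* `splitSS` : the splitting, with `splitSS_sec`.
-/

open CategoryTheory MonoidalCategory Limits Pretriangulated Topology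
open Functor.LaxMonoidal Functor.OplaxMonoidal Functor.Monoidal
open Vale.Agent.P251.T Vale.Agent.P251.M Vale.Agent.P251.S Vale.Agent.P251.H Vale.Agent.P257.H314
open Vale.Agent.P251.G Vale.Agent.P251.G.LC Vale.Agent.P251.I Vale.Agent.P251.G.Cell

universe v u

set_option linter.unusedSectionVars false

noncomputable section

namespace Vale.Agent.P257.H319

section LCside

variable (κ : Type) [Fintype κ] [DecidableEq κ]

/-- the unit sphere, as the sphere bundle over a point -/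
def sphHomeo : (Bun.triv Unit κ).Sph ≃ₜ SS κ where
  toFun s := ⟨s.vec, s.nsq_vec⟩
  invFun x := (Bun.triv Unit κ).mkSph () x.v (by
    change (1 : Matrix κ κ ℂ).mulVec x.v = x.v
    rw [Matrix.one_mulVec]) x.nsq_v
  left_inv _ := Bun.Sph.ext (Subsingleton.elim _ _) rfl
  right_inv _ := rfl
  continuous_toFun := Bun.Sph.continuous_vec.subtype_mk _
  continuous_invFun := Bun.continuous_Sph_iff.mpr ⟨continuous_const, SS.continuous_v⟩

/-- the vector space, as a bundle over a point -/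
def vecHomeo : (Bun.triv Unit κ).E ≃ₜ (κ → ℂ) :=
  (Bun.trivHomeo Unit κ).trans (Homeomorph.punitProd (κ → ℂ))

/-- the unit sphere -/
def sphIsoSS : (Bun.triv Unit κ).sph ≅ LC.of (SS κ) :=
  ofHomeo (X := (Bun.triv Unit κ).sph) (Y := LC.of (SS κ)) (sphHomeo κ)

/-- the vector space -/
def vecIso : (Bun.triv Unit κ).tot ≅ LC.of (κ → ℂ) :=
  ofHomeo (X := (Bun.triv Unit κ).tot) (Y := LC.of (κ → ℂ)) (vecHomeo κ)

/-- the projection of the sphere to the point -/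
def prSS : LC.of (SS κ) ⟶ 𝟙_ LC :=
  ofCompact (X := LC.of (SS κ)) (Y := LC.of Unit) (fun _ => ()) continuous_const

/-- the origin of the vector space -/
def zeroSS : 𝟙_ LC ⟶ LC.of (κ → ℂ) := (Bun.triv Unit κ).zeroHom ≫ (vecIso κ).hom

/-- the connecting map (polar coordinates) -/
def connSS : LC.of (κ → ℂ) ⟶ LC.of (SS κ) ⊗ RR :=
  (vecIso κ).inv ≫ (Bun.triv Unit κ).polarConn ≫ ((sphIsoSS κ).hom ▷ RR)

/-- polar coordinates -/
def polSS : LC.of (SS κ) ⊗ HH ⟶ LC.of (κ → ℂ) :=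
  ((sphIsoSS κ).inv ▷ HH) ≫ (Bun.triv Unit κ).polarHom ≫ (vecIso κ).hom

theorem sphIsoSS_prSS : (sphIsoSS κ).hom ≫ prSS κ = (Bun.triv Unit κ).sphHom := by
  apply hom_ext
  intro x
  rfl

theorem isPushout_SS : IsPushout (inclH (LC.of (SS κ))) (prSS κ) (polSS κ) (zeroSS κ) := by
  refine IsPushout.of_iso (Bun.triv Unit κ).isPushout_polar (sphIsoSS κ)
    (whiskerRightIso (sphIsoSS κ) HH) (Iso.refl _) (vecIso κ) ?_ ?_ ?_ ?_
  · change inclH (Bun.triv Unit κ).sph ≫ ((sphIsoSS κ).hom ▷ HH) = _ ≫ inclH (LC.of (SS κ))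
    rw [inclH, inclH, Category.assoc, whisker_exchange, rightUnitor_inv_naturality_assoc]
  · rw [Iso.refl_hom, Category.comp_id]
    exact (sphIsoSS_prSS κ).symm
  · rw [polSS, whiskerRightIso_hom, ← comp_whiskerRight_assoc, Iso.hom_inv_id,
      id_whiskerRight, Category.id_comp]
  · rw [Iso.refl_hom, Category.id_comp, zeroSS]

theorem zeroSS_connSS : zeroSS κ ≫ connSS κ = 0 := by
  rw [zeroSS, connSS, Category.assoc, Iso.hom_inv_id_assoc,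
    Bun.zeroHom_conn_assoc, zero_comp]

theorem polSS_connSS : polSS κ ≫ connSS κ = LC.of (SS κ) ◁ openPart := by
  rw [polSS, connSS, Category.assoc, Category.assoc, Iso.hom_inv_id_assoc,
    Bun.polarHom_conn_assoc]
  change ((sphIsoSS κ).inv ▷ HH) ≫ ((Bun.triv Unit κ).sph ◁ openPart) ≫ _ = _
  rw [whisker_exchange, ← comp_whiskerRight_assoc, Iso.inv_hom_id, id_whiskerRight,
    Category.id_comp]

end LCside

variable {T : Type u} [Category.{v} T] [Preadditive T] [HasZeroObject T]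
    [HasShift T ℤ] [∀ n : ℤ, (shiftFunctor T n).Additive] [Pretriangulated T]
    [MonoidalCategory T] [SymmetricCategory T] [TensorTriangulated T] (F : SpaceFunctor T)

variable (κ : Type) [Fintype κ] [DecidableEq κ]

/-- the sphere in `FCat` -/
abbrev SSF : FCat := ⟨LC.of (SS κ), fc_of_hasChain (SS κ)⟩

/-- the vector space in `FCat` -/
abbrev VVF : FCat := ⟨LC.of (κ → ℂ), fc_cvec κ⟩

/-- `S(X × ℝ) ≅ (S X)⟦1⟧` -/
def susS (X : FCat) : F.S.obj (X ⊗ RRF) ≅ (F.S.obj X)⟦(1 : ℤ)⟧ :=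
  (μIso F.S X RRF).symm ≪≫ whiskerLeftIso _ F.line ≪≫ TensorTriangulated.e (F.S.obj X)

/-- the third map of the triangle -/
def wSS : F.S.obj (VVF κ) ⟶ (F.S.obj (SSF κ))⟦(1 : ℤ)⟧ :=
  F.S.map (FCat.hom (X := VVF κ) (Y := SSF κ ⊗ RRF) (connSS κ)) ≫ (susS F (SSF κ)).hom

/-- the projection -/
def prT : F.S.obj (SSF κ) ⟶ 𝟙_ T :=
  F.S.map (FCat.hom (X := SSF κ) (Y := 𝟙_ FCat) (prSS κ)) ≫ η F.S

lemma dist_iso₂ {X Y Y' Z : T} {f : X ⟶ Y} {g : Y ⟶ Z} {h : Z ⟶ X⟦(1 : ℤ)⟧} (D : Dist f g h)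
    (e : Y ≅ Y') : Dist (f ≫ e.hom) (e.inv ≫ g) h := by
  refine isomorphic_distinguished _ D _ (Triangle.isoMk _ _ (Iso.refl X) e.symm (Iso.refl Z)
    ?_ ?_ ?_)
  · show (f ≫ e.hom) ≫ e.inv = 𝟙 X ≫ f; simp
  · show (e.inv ≫ g) ≫ 𝟙 Z = e.inv ≫ g; simp
  · show h ≫ (shiftFunctor T (1 : ℤ)).map (𝟙 X) = 𝟙 Z ≫ h; simp

theorem distSS : ∃ z : 𝟙_ T ⟶ F.S.obj (VVF κ), Dist (prT F κ) z (wSS F κ) := by
  have h := F.cone (X := SSF κ) (Y := 𝟙_ FCat) (C := VVF κ)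
    (FCat.hom (X := SSF κ) (Y := 𝟙_ FCat) (prSS κ))
    (FCat.hom (X := 𝟙_ FCat) (Y := VVF κ) (zeroSS κ)) (polSS κ) (isPushout_SS κ)
    (FCat.hom (X := VVF κ) (Y := SSF κ ⊗ RRF) (connSS κ)) (zeroSS_connSS κ) (polSS_connSS κ)
  have h2 := dist_iso₂ (T := T) h (εIso F.S).symm
  have h3 : wSS F κ = F.S.map (FCat.hom (X := VVF κ) (Y := SSF κ ⊗ RRF) (connSS κ)) ≫
      (Functor.Monoidal.μIso F.S (SSF κ) RRF).inv ≫
      (F.S.obj (SSF κ) ◁ F.line.hom) ≫ (TensorTriangulated.e (F.S.obj (SSF κ))).hom := by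
    simp [wSS, susS]
  rw [h3]
  exact ⟨_, h2⟩

/-- the vector space is a sphere -/
theorem nonempty_vecSph : Nonempty (F.S.obj (VVF κ) ≅ (𝟙_ T)⟦(2 * Fintype.card κ : ℤ)⟧) := by
  have h : Module.finrank ℝ (κ → ℂ) = Module.finrank ℝ (Fin (2 * Fintype.card κ) → ℝ) := by
    rw [Module.finrank_pi_fintype, Module.finrank_fin_fun]
    simp [mul_comm]
  let e : (κ → ℂ) ≃ₜ (Fin (2 * Fintype.card κ) → ℝ) :=
    (ContinuousLinearEquiv.ofFinrankEq h).toHomeomorph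
  refine ⟨F.S.mapIso (fcIso (X := VVF κ) (Y := SphF (2 * Fintype.card κ))
    (ofHomeo (X := LC.of (κ → ℂ)) (Y := Sph (2 * Fintype.card κ)) e)) ≪≫
    sphIso F (2 * Fintype.card κ) ≪≫ eqToIso (by push_cast; rfl)⟩

/-- `S(ℂ^κ) ≅ 𝟙⟦m⟧⟦1⟧` -/
def vecSph {m : ℤ} (hm : m + 1 = 2 * Fintype.card κ) :
    F.S.obj (VVF κ) ≅ ((𝟙_ T)⟦m⟧)⟦(1 : ℤ)⟧ :=
  (nonempty_vecSph F κ).some ≪≫ (shiftFunctorAdd' T m 1 _ hm).app (𝟙_ T)

variable {κ}

/-- **The splitting of the suspension spectrum of the sphere.** -/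
def splitSS {m : ℤ} (hm : m + 1 = 2 * Fintype.card κ) (hm0 : 0 ≤ m)
    {pt : 𝟙_ T ⟶ F.S.obj (SSF κ)} (hpt : pt ≫ prT F κ = 𝟙 _) : SplitA (F.S.obj (SSF κ)) m :=
  SplitA.ofTriangle hpt (distSS F κ).choose_spec (by
    have hc := unit_conn F
    let i : (𝟙_ T)⟦(0 : ℤ)⟧ ≅ 𝟙_ T := (shiftFunctorZero T ℤ).app _
    rw [← cancel_epi i.hom, ← cancel_mono (nonempty_vecSph F κ).some.hom, comp_zero, zero_comp]
    exact eq_zero_of_shift (fun f => hc _ (by omega) f) _) (vecSph F κ hm)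

lemma splitSS_pt {m : ℤ} (hm : m + 1 = 2 * Fintype.card κ) (hm0 : 0 ≤ m)
    {pt : 𝟙_ T ⟶ F.S.obj (SSF κ)} (hpt : pt ≫ prT F κ = 𝟙 _) : (splitSS F hm hm0 hpt).pt = pt :=
  rfl

lemma splitSS_pr {m : ℤ} (hm : m + 1 = 2 * Fintype.card κ) (hm0 : 0 ≤ m)
    {pt : 𝟙_ T ⟶ F.S.obj (SSF κ)} (hpt : pt ≫ prT F κ = 𝟙 _) :
    (splitSS F hm hm0 hpt).pr = prT F κ :=
  rfl

lemma splitSS_sec {m : ℤ} (hm : m + 1 = 2 * Fintype.card κ) (hm0 : 0 ≤ m)
    {pt : 𝟙_ T ⟶ F.S.obj (SSF κ)} (hpt : pt ≫ prT F κ = 𝟙 _) :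
    (vecSph F κ hm).hom ≫ (splitSS F hm hm0 hpt).sec⟦(1 : ℤ)⟧' = wSS F κ :=
  SplitA.ofTriangle_sec _ _ _ _

end Vale.Agent.P257.H319
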