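import Vale.Agent.P257.H941.Cobd
import Vale.Agent.P257.H254.PageP

/-!
# P257 / H319 / WordStep : the leading term method with a finite list of words

`exists_sub_mem_words` : let the monomials of degree `s + 1`, weight `W` and level `≥ L0` be a
finite list, given by words, and let the matrix of the Koszul coboundary of these words be
injective in each level. Then every cochain of this degree and weight whose coboundary is of level
`< L0` is of level `< L0` up to a coboundary.
-/

noncomputable section

namespace Vale.Agent.P257.H319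

open Vale.Agent.P257.H93 Vale.Agent.P257.H134 Vale.Agent.P257.H254
open Vale.Agent.P257.H632 hiding dg
open Vale.Agent.P257.H941

variable {p : ℕ} [hp : Fact p.Prime] {μ : ℕ × ℕ → ℕ}

open Classical in
theorem exists_sub_mem_words (hμ : IsMu p μ) (hp2 : 2 < p) (s W L0 : ℕ) {ι : Type} [Fintype ι]
    (a b : ι → List (ℕ × ℕ))
    (hdeg : ∀ k, (a k).length + 2 * (b k).length = s + 1)
    (hW : ∀ k, la p (wD p) (a k) (b k) = W)
    (hnd : ∀ k, (a k).Nodup)
    (hsn : ∀ k, (snl (a k) : ZMod p) ≠ 0)
    (henum : ∀ r : EI (ℕ × ℕ), degM r = s + 1 → levM p (wD p) r = W → L0 ≤ levM p μ r →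
      ∃ k, r = mab (a k) (b k))
    (hinj : ∀ k k', mab (a k) (b k) = mab (a k') (b k') → k = k')
    (hlev : ∀ k, L0 < la p μ (a k) (b k))
    (hK : ∀ (L : ℕ) (c : ι → ZMod p), (∀ k, c k ≠ 0 → la p μ (a k) (b k) = L + 1) →
      (∀ τ : EI (ℕ × ℕ), degM τ = s + 2 → levM p (wD p) τ = W → levM p μ τ = L →
        ∑ k, c k * (if τ.2 = bl (b k) then (KT τ.1 (a k) : ZMod p) else 0) = 0) → c = 0)
    {w : CobP p (s + 1)} (hw : w ∈ WtP p (s + 1) W) (hd : dP (s + 1) w ∈ Fil μ (s + 2) L0) :
    ∃ x ∈ WtP p s W, w - dP s x ∈ Fil μ (s + 1) L0 := by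
  have P := page (p := p) hμ hp2 s W Fil_zero_eq exists_mem_Fil
  obtain ⟨m, hm⟩ := exists_mem_Fil (μ := μ) (s + 1) w
  have hl1 : ∀ k, la p μ (a k) (b k) - 1 + 1 = la p μ (a k) (b k) := fun k => by
    have := hlev k
    omega
  have key := P.step (dL_dL (p := p) s) (fun k => cab p (s + 1) (a k) (b k))
    (fun k => la p μ (a k) (b k)) (fun k => la p μ (a k) (b k) - 1)
    (fun k => by rw [← hW k]; exact cab_mem_WtP _ _ _)
    (fun k => cab_mem hμ _ _ _)
    (fun k => by rw [hl1]; exact dP_cab_mem hμ _ _ _)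
    (fun k => by have := hlev k; omega) L0 (max m L0) ?_ ?_ (max m L0) le_rfl L0 le_rfl
    (le_max_right _ _) w (Fil_mono μ _ (le_max_left _ _) hm) hw hd
  · obtain ⟨c, hc, x, hx, h⟩ := key
    have hc0 : ∀ k, c k = 0 := by
      intro k
      by_contra h1
      have h2 := (hc k h1).1
      have h3 := hlev k
      omega
    refine ⟨x, hx, ?_⟩
    simp only [hc0, zero_smul, Finset.sum_const_zero, sub_zero] at h
    exact h
  · -- the span condition
    intro n hn _ w' _ _ _
    refine ⟨fun k => if la p μ (a k) (b k) = n then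
      Th (s + 1) (mab (a k) (b k)) w' * ((snl (a k) : ZMod p))⁻¹ else 0, ?_, 0,
      Submodule.zero_mem _, ?_, ?_⟩
    · intro k hk
      by_contra h
      exact hk (if_neg h)
    · rw [map_zero]
      exact Submodule.zero_mem _
    · rintro ⟨r, hr1, hr2⟩ hr
      simp only at hr
      obtain ⟨k0, hk0⟩ := henum r hr1 hr2 (by omega)
      have hl0 : la p μ (a k0) (b k0) = n := by
        rw [← levM_mab μ (hnd k0), ← hk0, hr]
      rw [map_zero, map_zero, add_zero, Finset.sum_eq_single k0]
      · simp only [ThL_apply]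
        have h1 : Th (s + 1) r (cab p (s + 1) (a k0) (b k0)) = (snl (a k0) : ZMod p) := by
          rw [Th_cab hμ hp2 (hdeg k0) r (by omega)]
          exact if_pos hk0
        rw [if_pos hl0, h1, hk0, mul_assoc, inv_mul_cancel₀ (hsn k0), mul_one]
      · intro k _ hk
        simp only [ThL_apply]
        by_cases h : la p μ (a k) (b k) = n
        · have h1 : Th (s + 1) r (cab p (s + 1) (a k) (b k)) = 0 := by
            rw [Th_cab hμ hp2 (hdeg k) r (by omega)]
            refine if_neg fun h2 => hk (hinj _ _ ?_)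
            rw [← hk0]
            exact h2.symm
          rw [h1, mul_zero]
        · rw [if_neg h, zero_mul]
      · intro h
        exact absurd (Finset.mem_univ _) h
  · -- the matrix
    intro L _ _ c hc h
    have hc' : ∀ k, c k ≠ 0 → la p μ (a k) (b k) = L + 1 := by
      intro k hk
      rw [← hl1 k, hc k hk]
    apply hK L c hc'
    intro τ h1 h2 h3
    refine (Finset.sum_congr rfl fun k _ => ?_).trans (h ⟨τ, h1, h2⟩ h3)
    by_cases hk : c k = 0
    · rw [hk, zero_mul, zero_mul]
    · rw [ThL_apply, dL_apply, Th_dP_cab hμ hp2 (hdeg k) τ (by rw [hc' k hk, h3])]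

end Vale.Agent.P257.H319

end
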